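import Crest.Agent.N325.Hi.Qual
import Crest.Agent.N325.Lf.Res

/-!
# Row 325, module M4: expansion certificates with deficits (helper42)

`Cert E a b w μ ν A c d N0`: every `T ⊆ A` on the `ν`-small side expands up to the deficit `d`.
Update rules (U1–U6), the two local-flow steps (S1, S2) and the bridge to `lev_one`.
-/

set_option autoImplicit false

namespace Crest.Agent.N325.Hi

open Finset Lf St

/-- `w`-weight of the edges of `E` (ends `a`, `b`) between `A` and `B` -/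
def xw (E : Finset ℕ) (a b w : ℕ → ℕ) (A B : Finset ℕ) : ℕ :=
  ∑ e ∈ E, if (a e ∈ A ∧ b e ∈ B) ∨ (a e ∈ B ∧ b e ∈ A) then w e else 0

theorem crs_eq_xw (N : Net) (E : Finset ℕ) (w : ℕ → ℕ) (A B : Finset ℕ) :
    N.crs E w A B = xw E N.src N.dst w A B := rfl

/-- expansion certificate of the cluster `A`: measure `μ`, birth measure `ν`, deficits `d` -/
def Cert (E : Finset ℕ) (a b w μ ν : ℕ → ℕ) (A : Finset ℕ) (c : ℕ) (d : ℕ → ℕ) (N0 : ℕ) : Prop :=
  ∀ T ⊆ A, 2 * ∑ v ∈ T, ν v ≤ N0 → ∑ v ∈ T, μ v ≤ c * xw E a b w T (A \ T) + ∑ v ∈ T, d v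

variable {E E' M A A' B B' R T : Finset ℕ} {a b w a' b' w' μ ν μ' ν' d d' : ℕ → ℕ}
  {c c' N0 N0' : ℕ}

theorem xw_comm : xw E a b w A B = xw E a b w B A :=
  sum_congr rfl fun e _ => by simp only [or_comm]

theorem xw_mono (hA : A ⊆ A') (hB : B ⊆ B') : xw E a b w A B ≤ xw E a b w A' B' := by
  refine sum_le_sum fun e _ => ?_
  split_ifs with h1 h2
  · exact le_rfl
  · exact absurd (h1.elim (fun h => Or.inl ⟨hA h.1, hB h.2⟩) fun h => Or.inr ⟨hB h.1, hA h.2⟩) h2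
  · exact Nat.zero_le _
  · exact le_rfl

theorem xw_union_le : xw E a b w A (B ∪ B') ≤ xw E a b w A B + xw E a b w A B' := by
  unfold xw
  rw [← sum_add_distrib]
  refine sum_le_sum fun e _ => ?_
  simp only [mem_union]
  by_cases a1 : a e ∈ A <;> by_cases a2 : b e ∈ A <;> by_cases a3 : a e ∈ B <;>
    by_cases a4 : b e ∈ B <;> by_cases a5 : a e ∈ B' <;> by_cases a6 : b e ∈ B' <;> simp [*]

/-- splitting off a part `R` of the other side -/
theorem xw_sdiff_le : xw E a b w T (A \ T) ≤ xw E a b w T ((A \ R) \ T) + xw E a b w T R := by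
  refine le_trans (xw_mono Subset.rfl fun v hv => ?_) xw_union_le
  simp only [mem_sdiff, mem_union] at hv ⊢
  tauto

theorem sum_wdeg' (M T : Finset ℕ) (a b w : ℕ → ℕ) : ∑ v ∈ T, wdeg M a b w v
    = ∑ e ∈ M, ((if a e ∈ T then w e else 0) + if b e ∈ T then w e else 0) := by
  unfold wdeg
  rw [sum_comm]
  refine sum_congr rfl fun e _ => ?_
  rw [sum_add_distrib, sum_ite_eq, sum_ite_eq]

theorem wdeg_insert {e : ℕ} (he : e ∉ M) (v : ℕ) : wdeg (insert e M) a b w v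
    = wdeg M a b w v + ((if a e = v then w e else 0) + if b e = v then w e else 0) := by
  unfold wdeg
  rw [sum_insert he, add_comm]

@[simp] theorem wdeg_empty (v : ℕ) : wdeg ∅ a b w v = 0 := by simp [wdeg]

theorem wdeg_singleton (e v : ℕ) :
    wdeg {e} a b w v = (if a e = v then w e else 0) + if b e = v then w e else 0 := by
  simp [wdeg]

/-- comparison of crossing weights when the edges in `M` are lost -/
theorem xw_le_of_lost {T' B' : Finset ℕ}
    (h : ∀ e ∈ E, ((a e ∈ T ∧ b e ∈ B) ∨ (a e ∈ B ∧ b e ∈ T)) → e ∉ M →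
      e ∈ E' ∧ w e ≤ w' e ∧ ((a' e ∈ T' ∧ b' e ∈ B') ∨ (a' e ∈ B' ∧ b' e ∈ T'))) :
    xw E a b w T B ≤ xw E' a' b' w' T' B' + ∑ v ∈ T, wdeg M a b w v := by
  classical
  rw [sum_wdeg']
  unfold xw
  rw [← sum_filter, ← sum_filter]
  set F := E.filter fun e => (a e ∈ T ∧ b e ∈ B) ∨ (a e ∈ B ∧ b e ∈ T) with hF
  rw [← sum_filter_add_sum_filter_not F fun e => e ∉ M]
  refine Nat.add_le_add ?_ ?_
  · refine le_trans (sum_le_sum (g := w') fun e he => ?_) (sum_le_sum_of_subset fun e he => ?_)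
    · simp only [hF, mem_filter] at he
      exact (h e he.1.1 he.1.2 he.2).2.1
    · simp only [hF, mem_filter] at he ⊢
      exact ⟨(h e he.1.1 he.1.2 he.2).1, (h e he.1.1 he.1.2 he.2).2.2⟩
  · refine le_trans (sum_le_sum (g := fun e =>
      (if a e ∈ T then w e else 0) + if b e ∈ T then w e else 0) fun e he => ?_)
      (sum_le_sum_of_subset fun e he => ?_)
    · simp only [hF, mem_filter] at he
      rcases he.1.2 with h1 | h1 <;> simp [h1]
    · simp only [hF, mem_filter, not_not] at he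
      exact he.2

/-- **Master update rule.**  The cluster becomes `A'`; edges of `M` are lost (deleted, moved or
cut), all other edges inside `A` with an end in `A'` keep their ends, which stay in `A'`;
old nodes pay `c` per lost weight and the growth of their measure, new nodes pay their measure. -/
theorem Cert.update (h : Cert E a b w μ ν A c d N0) (M : Finset ℕ)
    (hE : ∀ e ∈ E, a e ∈ A → b e ∈ A → a e ∈ A' ∨ b e ∈ A' → e ∉ M →
      e ∈ E' ∧ w e ≤ w' e ∧ a' e = a e ∧ b' e = b e ∧ a e ∈ A' ∧ b e ∈ A')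
    (hc : c ≤ c') (hN : N0' ≤ N0) (hν : ∀ v ∈ A', v ∈ A → ν v ≤ ν' v)
    (hold : ∀ v ∈ A', v ∈ A → μ' v + d v + c * wdeg M a b w v ≤ μ v + d' v)
    (hnew : ∀ v ∈ A', v ∉ A → μ' v ≤ d' v) : Cert E' a' b' w' μ' ν' A' c' d' N0' := by
  intro T hT h2
  have s1 : ∀ f : ℕ → ℕ, ∑ v ∈ T, f v = ∑ v ∈ T ∩ A, f v + ∑ v ∈ T \ A, f v := fun f => by
    rw [sum_inter_add_sum_sdiff T A f]
  have k0 : ∑ v ∈ T ∩ A, ν v ≤ ∑ v ∈ T ∩ A, ν' v :=
    sum_le_sum fun v hv => hν v (hT (mem_inter.1 hv).1) (mem_inter.1 hv).2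
  have k1 := h (T ∩ A) inter_subset_right (by rw [s1] at h2; omega)
  have k2 : xw E a b w (T ∩ A) (A \ (T ∩ A))
      ≤ xw E' a' b' w' T (A' \ T) + ∑ v ∈ T ∩ A, wdeg M a b w v := by
    refine xw_le_of_lost fun e he hx hM => ?_
    simp only [mem_inter, mem_sdiff] at hx ⊢
    rcases hx with hx | hx
    · obtain ⟨p1, p2, p3, p4, p5, p6⟩ := hE e he hx.1.2 hx.2.1 (Or.inl (hT hx.1.1)) hM
      rw [p3, p4]
      exact ⟨p1, p2, Or.inl ⟨hx.1.1, p6, fun k => hx.2.2 ⟨k, hx.2.1⟩⟩⟩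
    · obtain ⟨p1, p2, p3, p4, p5, p6⟩ := hE e he hx.1.1 hx.2.2 (Or.inr (hT hx.2.1)) hM
      rw [p3, p4]
      exact ⟨p1, p2, Or.inr ⟨⟨p5, fun k => hx.1.2 ⟨k, hx.1.1⟩⟩, hx.2.1⟩⟩
  have k3 : ∑ v ∈ T ∩ A, μ' v + ∑ v ∈ T ∩ A, d v + c * ∑ v ∈ T ∩ A, wdeg M a b w v
      ≤ ∑ v ∈ T ∩ A, μ v + ∑ v ∈ T ∩ A, d' v := by
    rw [mul_sum, ← sum_add_distrib, ← sum_add_distrib, ← sum_add_distrib]
    exact sum_le_sum fun v hv => hold v (hT (mem_inter.1 hv).1) (mem_inter.1 hv).2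
  have k4 : ∑ v ∈ T \ A, μ' v ≤ ∑ v ∈ T \ A, d' v :=
    sum_le_sum fun v hv => hnew v (hT (mem_sdiff.1 hv).1) (mem_sdiff.1 hv).2
  have k5 := Nat.mul_le_mul_left c k2
  have k6 := Nat.mul_le_mul_right (xw E' a' b' w' T (A' \ T)) hc
  rw [s1 μ', s1 d']
  rw [mul_add] at k5
  omega

/-- (U5) monotonicity -/
theorem Cert.mono (h : Cert E a b w μ ν A c d N0) (hc : c ≤ c') (hd : ∀ v ∈ A, d v ≤ d' v) :
    Cert E a b w μ ν A c' d' N0 :=
  h.update ∅ (fun e he h1 h2 _ _ => ⟨he, le_rfl, rfl, rfl, h1, h2⟩) hc le_rfl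
    (fun _ _ _ => le_rfl) (fun v hv _ => by simpa using hd v hv) fun _ hv h' => absurd hv h'

/-- (U2) change of the measure -/
theorem Cert.meas (h : Cert E a b w μ ν A c d N0) (hd : ∀ v ∈ A, μ' v + d v ≤ μ v + d' v) :
    Cert E a b w μ' ν A c d' N0 :=
  h.update ∅ (fun e he h1 h2 _ _ => ⟨he, le_rfl, rfl, rfl, h1, h2⟩) le_rfl le_rfl
    (fun _ _ _ => le_rfl) (fun v hv _ => by simpa using hd v hv) fun _ hv h' => absurd hv h'

/-- only the data inside `A` matter; edges may be added and made heavier -/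
theorem Cert.congr (h : Cert E a b w μ ν A c d N0)
    (hE : ∀ e ∈ E, a e ∈ A → b e ∈ A → e ∈ E' ∧ w e ≤ w' e ∧ a' e = a e ∧ b' e = b e)
    (hμ : ∀ v ∈ A, μ' v ≤ μ v) (hν : ∀ v ∈ A, ν v ≤ ν' v) (hd : ∀ v ∈ A, d v ≤ d' v) :
    Cert E' a' b' w' μ' ν' A c d' N0 :=
  h.update ∅ (fun e he h1 h2 _ _ =>
      have k := hE e he h1 h2; ⟨k.1, k.2.1, k.2.2.1, k.2.2.2, h1, h2⟩) le_rfl le_rfl
    (fun v hv _ => hν v hv) (fun v hv _ => by have := hμ v hv; have := hd v hv; simp; omega)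
    fun _ hv h' => absurd hv h'

/-- (U1, U3) the edges of `M` are deleted or rewired -/
theorem Cert.rewire (h : Cert E a b w μ ν A c d N0) (M : Finset ℕ)
    (hE : ∀ e ∈ E, e ∉ M → e ∈ E' ∧ w e ≤ w' e ∧ a' e = a e ∧ b' e = b e)
    (hd : ∀ v ∈ A, μ' v + d v + c * wdeg M a b w v ≤ μ v + d' v) :
    Cert E' a' b' w' μ' ν A c d' N0 :=
  h.update M (fun e he h1 h2 _ hM =>
      have k := hE e he hM; ⟨k.1, k.2.1, k.2.2.1, k.2.2.2, h1, h2⟩) le_rfl le_rfl
    (fun _ _ _ => le_rfl) (fun v hv _ => hd v hv) fun _ hv h' => absurd hv h'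

/-- (U1) one edge is deleted or rewired -/
theorem Cert.rewire_one (h : Cert E a b w μ ν A c d N0) (e0 : ℕ)
    (hE : ∀ e ∈ E, e ≠ e0 → e ∈ E' ∧ w e ≤ w' e ∧ a' e = a e ∧ b' e = b e)
    (hd : ∀ v ∈ A, μ' v + d v + ((if a e0 = v then c * w e0 else 0)
      + if b e0 = v then c * w e0 else 0) ≤ μ v + d' v) :
    Cert E' a' b' w' μ' ν A c d' N0 := by
  refine h.rewire {e0} (fun e he hM => hE e he (by simpa using hM)) fun v hv => ?_
  have := hd v hv
  rw [wdeg_singleton]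
  split_ifs at this ⊢ <;> simp only [mul_add, mul_zero] <;> omega

/-- (U6) a new node joins the cluster -/
theorem Cert.insert (h : Cert E a b w μ ν A c d N0) {x : ℕ} (hx : μ' x ≤ d' x)
    (hμ : ∀ v ∈ A, μ' v + d v ≤ μ v + d' v) (hν : ∀ v ∈ A, ν v ≤ ν' v) :
    Cert E a b w μ' ν' (insert x A) c d' N0 :=
  h.update ∅ (fun e he h1 h2 _ _ =>
      ⟨he, le_rfl, rfl, rfl, mem_insert_of_mem h1, mem_insert_of_mem h2⟩) le_rfl le_rfl
    (fun v _ hv => hν v hv) (fun v _ hv => by simpa using hμ v hv) fun v hv h' => by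
      rcases mem_insert.1 hv with rfl | hv
      · exact hx
      · exact absurd hv h'

/-- (U4) the part `R` leaves the cluster; `M` contains the cut edges -/
theorem Cert.remove (h : Cert E a b w μ ν A c d N0) (R M : Finset ℕ)
    (hM : ∀ e ∈ E, (a e ∈ A \ R ∧ b e ∈ R) ∨ (a e ∈ R ∧ b e ∈ A \ R) → e ∈ M)
    (hd : ∀ v ∈ A \ R, μ' v + d v + c * wdeg M a b w v ≤ μ v + d' v) :
    Cert E a b w μ' ν (A \ R) c d' N0 := by
  refine h.update M (fun e he h1 h2 h3 h4 => ⟨he, le_rfl, rfl, rfl, ?_⟩) le_rfl le_rfl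
    (fun _ _ _ => le_rfl) (fun v hv _ => hd v hv) fun _ hv h' => absurd (mem_sdiff.1 hv).1 h'
  have := mt (hM e he) h4
  simp only [mem_sdiff] at this h3 ⊢
  tauto

/-- the total price of (U4) when `M` is exactly the set of cut edges -/
theorem sum_wdeg_cut (hM : ∀ e ∈ M, e ∈ E ∧ ((a e ∈ B ∧ b e ∈ R) ∨ (a e ∈ R ∧ b e ∈ B)))
    (hd : Disjoint B R) : ∑ v ∈ B, wdeg M a b w v ≤ xw E a b w B R := by
  rw [sum_wdeg']
  unfold xw
  refine le_trans (sum_le_sum fun e he => ?_) (sum_le_sum_of_subset fun e he => (hM e he).1)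
  have h1 := @disjoint_left.1 hd (a e)
  have h2 := @disjoint_left.1 hd (b e)
  rcases (hM e he).2 with k | k
  · simp [k.1, k.2, show b e ∉ B from fun j => h2 j k.2]
  · simp [k.1, k.2, show a e ∉ B from fun j => h1 j k.1]

theorem sum_wdeg_le (M T : Finset ℕ) : ∑ v ∈ T, wdeg M a b w v ≤ 2 * ∑ e ∈ M, w e := by
  rw [sum_wdeg', mul_sum]
  exact sum_le_sum fun e _ => by split_ifs <;> omega

/-! ### The two local-flow steps -/

/-- the instance `N` on the edges `E0` with weights `w0` sees the crossing weights inside `A` -/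
def Sees (N : Net) (E0 : Finset ℕ) (w0 : ℕ → ℕ) (E : Finset ℕ) (a b w : ℕ → ℕ) (A : Finset ℕ) :
    Prop := ∀ S ⊆ A, ∀ T ⊆ A, N.crs E0 w0 S T = xw E a b w S T

theorem sees_of {N : Net} {E0 : Finset ℕ} {w0 : ℕ → ℕ}
    (h0 : ∀ e ∈ E0, e ∈ E ∧ N.src e = a e ∧ N.dst e = b e ∧ (a e ∈ A → b e ∈ A → w0 e = w e))
    (h1 : ∀ e ∈ E, a e ∈ A → b e ∈ A → e ∈ E0 ∨ w e = 0) : Sees N E0 w0 E a b w A := by
  intro S hS T hT
  unfold Net.crs xw
  rw [← sum_subset (s₁ := E0) (s₂ := E) (fun e he => (h0 e he).1) fun e he hn => ?_]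
  · refine sum_congr rfl fun e he => ?_
    obtain ⟨-, p1, p2, p3⟩ := h0 e he
    rw [p1, p2]
    split_ifs with k
    · rcases k with k | k
      · exact p3 (hS k.1) (hT k.2)
      · exact p3 (hT k.1) (hS k.2)
    · rfl
  · split_ifs with k
    · rcases k with k | k
      · exact (h1 e he (hS k.1) (hT k.2)).resolve_left hn
      · exact (h1 e he (hT k.1) (hS k.2)).resolve_left hn
    · rfl

theorem lsum_eq_sum (l : List (ℕ × ℕ)) (T : Finset ℕ) : lsum l T = ∑ v ∈ T, lsum l {v} := by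
  induction l with
  | nil => simp [lsum]
  | cons p l ih =>
    have e : ∀ S : Finset ℕ, lsum (p :: l) S = (if p.1 ∈ S then p.2 else 0) + lsum l S := by
      intro S
      by_cases h : p.1 ∈ S <;> simp [lsum, h]
    simp only [e, sum_add_distrib, ih, mem_singleton, sum_ite_eq]

theorem lsum_le (l : List (ℕ × ℕ)) (T : Finset ℕ) : lsum l T ≤ (l.map Prod.snd).sum :=
  (List.filter_sublist.map _).sum_le_sum fun _ _ => Nat.zero_le _

variable {N : Net} {E0 : Finset ℕ} {w0 mu : ℕ → ℕ} {K D Mx Bw x : ℕ} {f : ℕ → ℤ} {P : List ℕ}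
  {l : List (ℕ × ℕ)}

/-- (S1) sources `2 d`, sinks `μ`, capacities `2 c w` -/
theorem Cert.s1 (h : Cert E a b w μ ν A c d N0) (hs : Sees N E0 w0 E a b w A)
    (r : Res N A E0 w0 mu (2 * c) D Mx Bw f x P l) (ha : ∀ v ∈ A, N.a v = 2 * d v)
    (hb : ∀ v ∈ A, N.b v = μ v) :
    Cert E a b w μ ν (A \ P.toFinset) (4 * c) (fun v => 4 * c * lsum l {v}) N0 := by
  intro T hT h2
  have hTA : T ⊆ A := hT.trans sdiff_subset
  have k1 := h T hTA h2
  have k2 := r.trim T hT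
  rw [hs T hTA _ r.sub, hs T hTA _ (sdiff_subset.trans sdiff_subset),
    sum_congr rfl fun v hv => ha v (hTA hv), sum_congr rfl fun v hv => hb v (hTA hv),
    ← mul_sum] at k2
  have k3 := Nat.mul_le_mul_left c
    (xw_sdiff_le (E := E) (a := a) (b := b) (w := w) (T := T) (A := A) (R := P.toFinset))
  rw [← mul_sum, ← lsum_eq_sum]
  nlinarith

/-- the part removed by (S1) is paid by the deficit -/
theorem s1_small (r : Res N A E0 w0 mu K D Mx Bw f x P l) (ha : ∀ v ∈ A, N.a v = 2 * d v)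
    (hb : ∀ v ∈ A, N.b v = μ v) : ∑ v ∈ P.toFinset, μ v ≤ 2 * ∑ v ∈ A, d v := by
  have k := r.bP
  rw [sum_congr rfl fun v hv => hb v (r.sub hv), sum_congr rfl ha, ← mul_sum] at k
  exact le_trans (Nat.le_add_right _ _) k

/-- (S2) sources `μ` on `R`, sinks `μ` off `R`, capacities `2 c w` -/
theorem Cert.s2 (h : Cert E a b w μ ν (A \ R) c d N0) (hs : Sees N E0 w0 E a b w A)
    (r : Res N A E0 w0 mu (2 * c) D Mx Bw f x P l)
    (ha : ∀ v ∈ A, N.a v = if v ∈ R then μ v else 0)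
    (hb : ∀ v ∈ A, N.b v = if v ∈ R then 0 else μ v) :
    Cert E a b w μ ν (A \ P.toFinset) (4 * c)
      (fun v => (if v ∈ R then 0 else 2 * d v) + 4 * c * lsum l {v}) N0 := by
  intro T hT h2
  have hTA : T ⊆ A := hT.trans sdiff_subset
  have s1 : ∀ g : ℕ → ℕ, ∑ v ∈ T, g v = ∑ v ∈ T ∩ R, g v + ∑ v ∈ T \ R, g v := fun g => by
    rw [sum_inter_add_sum_sdiff T R g]
  have s2 : ∀ g g' : ℕ → ℕ, ∑ v ∈ T, (if v ∈ R then g v else g' v)
      = ∑ v ∈ T ∩ R, g v + ∑ v ∈ T \ R, g' v := fun g g' => by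
    rw [s1]
    congr 1
    · exact sum_congr rfl fun v hv => if_pos (mem_inter.1 hv).2
    · exact sum_congr rfl fun v hv => if_neg (mem_sdiff.1 hv).2
  have k1 := h (T \ R) (sdiff_subset_sdiff hTA Subset.rfl) (by rw [s1] at h2; omega)
  have k2 := r.trim T hT
  rw [hs T hTA _ r.sub, hs T hTA _ (sdiff_subset.trans sdiff_subset),
    sum_congr rfl fun v hv => ha v (hTA hv), sum_congr rfl fun v hv => hb v (hTA hv),
    s2 μ fun _ => 0, s2 (fun _ => 0) μ] at k2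
  have k3 : xw E a b w (T \ R) ((A \ R) \ (T \ R)) ≤ xw E a b w T (A \ T) :=
    xw_mono sdiff_subset fun v hv => by simp only [mem_sdiff] at hv ⊢; tauto
  have k4 := Nat.mul_le_mul_left c (k3.trans (xw_sdiff_le (R := P.toFinset)))
  rw [sum_add_distrib, ← mul_sum, ← lsum_eq_sum, s2 (fun _ => 0) fun v => 2 * d v, ← mul_sum, s1 μ]
  simp only [sum_const_zero, add_zero, zero_add] at k2 ⊢
  nlinarith

/-- the part cut by (S2) is at most twice the source -/
theorem s2_small (r : Res N A E0 w0 mu K D Mx Bw f x P l)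
    (ha : ∀ v ∈ A, N.a v = if v ∈ R then μ v else 0)
    (hb : ∀ v ∈ A, N.b v = if v ∈ R then 0 else μ v) :
    ∑ v ∈ P.toFinset, μ v ≤ 2 * ∑ v ∈ R, μ v := by
  have k := r.bP
  have k1 : ∑ v ∈ A, N.a v ≤ ∑ v ∈ R, μ v := by
    rw [sum_congr rfl ha, ← sum_filter]
    exact sum_le_sum_of_subset fun v hv => (mem_filter.1 hv).2
  have k2 : ∑ v ∈ P.toFinset, μ v
      = ∑ v ∈ P.toFinset, N.b v + ∑ v ∈ P.toFinset, if v ∈ R then μ v else 0 := by
    rw [← sum_add_distrib]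
    refine sum_congr rfl fun v hv => ?_
    rw [hb v (r.sub hv)]
    split_ifs <;> simp
  have k3 : (∑ v ∈ P.toFinset, if v ∈ R then μ v else 0) ≤ ∑ v ∈ R, μ v := by
    rw [← sum_filter]
    exact sum_le_sum_of_subset fun v hv => (mem_filter.1 hv).2
  omega

/-- the cut made by a call whose sources are at most the measure is sparse -/
theorem cut_sparse (hs : Sees N E0 w0 E a b w A) (r : Res N A E0 w0 μ K D Mx Bw f x P l)
    (ha : ∀ v ∈ A, N.a v ≤ μ v) (hD : K ≤ D) :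
    K * xw E a b w P.toFinset (A \ P.toFinset) ≤ 3 * ∑ v ∈ P.toFinset, μ v := by
  have k := r.cut
  rw [hs _ r.sub _ sdiff_subset] at k
  have k1 : ∑ v ∈ P.toFinset, N.a v ≤ ∑ v ∈ P.toFinset, μ v :=
    sum_le_sum fun v hv => ha v (r.sub hv)
  have k2 := r.sel.trans (min_le_left _ _)
  have k3 := Nat.mul_le_mul_right (l.map Prod.snd).sum hD
  rw [mul_assoc] at k
  omega

/-- the new deficits are small -/
theorem left_small (r : Res N A E0 w0 μ K D Mx Bw f x P l) (T : Finset ℕ) :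
    D * ∑ v ∈ T, lsum l {v} ≤ ∑ v ∈ P.toFinset, μ v := by
  rw [← lsum_eq_sum]
  exact (Nat.mul_le_mul_left _ (lsum_le l T)).trans (r.sel.trans (min_le_left _ _))

/-! ### Certificates without deficit -/

theorem Cert.side (h : Cert E a b w μ ν A c d N0) (hν : ∑ v ∈ A, ν v ≤ N0)
    (hd : ∀ v ∈ A, d v = 0) (hT : T ⊆ A) :
    ∑ v ∈ T, μ v ≤ c * xw E a b w T (A \ T) ∨ ∑ v ∈ A \ T, μ v ≤ c * xw E a b w T (A \ T) := by
  have e := sum_sdiff (f := ν) hT
  by_cases k : 2 * ∑ v ∈ T, ν v ≤ N0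
  · have := h T hT k
    rw [sum_eq_zero fun v hv => hd v (hT hv)] at this
    exact Or.inl this
  · have := h (A \ T) sdiff_subset (by omega)
    rw [sum_eq_zero fun v hv => hd v (sdiff_subset hv), Finset.sdiff_sdiff_eq_self hT, xw_comm]
      at this
    exact Or.inr this

open Classical in
/-- the form needed by `lev_one` -/
theorem Cert.lev {V : Finset ℕ} {cl : ℕ → ℕ} {X : ℕ}
    (h : Cert E a b w μ ν (V.filter fun v => cl v = X) c d N0)
    (hν : ∑ v ∈ V with cl v = X, ν v ≤ N0) (hd : ∀ v ∈ V, cl v = X → d v = 0) (S : Set ℕ) :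
    ∃ p : Prop, ∑ v ∈ V with cl v = X ∧ ¬ (v ∈ S ↔ p), μ v
      ≤ c * cutF (intra E a b cl X) a b w S := by
  set A := V.filter fun v => cl v = X with hA
  have k : xw E a b w (A.filter (· ∈ S)) (A \ A.filter (· ∈ S))
      ≤ cutF (intra E a b cl X) a b w S := by
    unfold xw cutF intra
    rw [sum_filter]
    refine sum_le_sum fun e _ => ?_
    simp only [hA, mem_sdiff, mem_filter]
    by_cases k1 : a e ∈ S <;> by_cases k2 : b e ∈ S <;> by_cases k3 : cl (a e) = X <;>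
      by_cases k4 : cl (b e) = X <;> simp [k1, k2, k3, k4] <;> split_ifs <;> simp
  rcases h.side hν (fun v hv => hd v (mem_filter.1 hv).1 (mem_filter.1 hv).2)
    (filter_subset (· ∈ S) A) with k1 | k1
  · refine ⟨False, le_trans (le_of_eq (sum_congr ?_ fun _ _ => rfl))
      (k1.trans (Nat.mul_le_mul_left _ k))⟩
    ext v
    simp [hA, and_assoc]
  · refine ⟨True, le_trans (le_of_eq (sum_congr ?_ fun _ _ => rfl))
      (k1.trans (Nat.mul_le_mul_left _ k))⟩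
    ext v
    simp only [hA, mem_sdiff, mem_filter]
    tauto

end Crest.Agent.N325.Hi
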