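import Crest.Agent.N325.Hi.Ent
import Crest.Agent.N325.Lst.ListR

/-!
# Row 325, module M4 (helper86): one level of the decremental expander hierarchy

Operations `Op`, abstract graphs `Gr`, the state `Lv`, the programs and the invariant.
-/

set_option autoImplicit false
open Finset

namespace Crest.Agent.N325.Hi

/-- operations: new vertex `y` next to `x` (with two lists of information), new edge,
move the end `x` of an edge to `y`, delete an edge, mark a vertex -/
inductive Op : Type
  | nv (y x : ℕ) (S Sm : List ℕ)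
  | ins (e a b u : ℕ)
  | mv (e x y u : ℕ)
  | del (e : ℕ)
  | mk (v : ℕ)

/-- abstract graphs: vertices, used edge ids, ends, capacities, alive, marked, ever-adjacency,
classes (the clusters of the level that owns the graph) -/
@[ext] structure Gr where
  V : Finset ℕ
  U : Finset ℕ
  src : ℕ → ℕ
  dst : ℕ → ℕ
  raw : ℕ → ℕ
  al : ℕ → Bool
  tm : ℕ → Bool
  adj : ℕ → List ℕ
  k : ℕ → ℕ

namespace Gr

/-- the alive edges -/
def E (G : Gr) : Finset ℕ := G.U.filter fun e => G.al e = true

/-- the cluster `X` -/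
def cs (G : Gr) (X : ℕ) : Finset ℕ := G.V.filter fun v => G.k v = X

def ok (G : Gr) : Op → Prop
  | .nv y x _ _ => y ∉ G.V ∧ x ∈ G.V
  | .ins e a b _ => e ∉ G.U ∧ a ∈ G.V ∧ b ∈ G.V ∧ a ≠ b ∧ G.k a = G.k b
  | .mv e x y u => e ∈ G.E ∧ y ∈ G.V ∧ G.k y = G.k x ∧ e ∉ G.adj y ∧
      (G.src e = x ∨ G.dst e = x) ∧ G.raw e = u
  | .del e => e ∈ G.E
  | .mk v => v ∈ G.V

def app (G : Gr) : Op → Gr
  | .nv y x _ _ => { G with
      V := insert y G.V, k := Function.update G.k y (G.k x)
      adj := Function.update G.adj y [], tm := Function.update G.tm y false }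
  | .ins e a b u => { G with
      U := insert e G.U, src := Function.update G.src e a, dst := Function.update G.dst e b
      raw := Function.update G.raw e u, al := Function.update G.al e true
      adj := Function.update (Function.update G.adj a (e :: G.adj a)) b (e :: G.adj b) }
  | .mv e x y _ => { G with
      src := Function.update G.src e (if G.src e = x then y else G.src e)
      dst := Function.update G.dst e (if G.src e = x then G.dst e else y)
      adj := Function.update G.adj y (e :: G.adj y) }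
  | .del e => { G with al := Function.update G.al e false }
  | .mk v => { G with tm := Function.update G.tm v true }

def apps (G : Gr) (l : List Op) : Gr := l.foldl app G

def oks : Gr → List Op → Prop
  | _, [] => True
  | G, o :: l => G.ok o ∧ oks (G.app o) l

structure WF (G : Gr) : Prop where
  ends : ∀ e ∈ G.E, G.src e ∈ G.V ∧ G.dst e ∈ G.V ∧ G.src e ≠ G.dst e ∧
    e ∈ G.adj (G.src e) ∧ e ∈ G.adj (G.dst e)
  nd : ∀ v ∈ G.V, (G.adj v).Nodup
  used : ∀ v ∈ G.V, ∀ e ∈ G.adj v, e ∈ G.U

/-- `H` is the contraction of the clusters `C` of `G` -/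
structure Rel (G : Gr) (C : Finset ℕ) (H : Gr) : Prop where
  hV : H.V = C
  hE : ∀ e, e ∈ H.E ↔ e ∈ G.E ∧ G.k (G.src e) ≠ G.k (G.dst e)
  ends : ∀ e ∈ H.E, H.src e = G.k (G.src e) ∧ H.dst e = G.k (G.dst e) ∧ H.raw e = G.raw e
  tm : ∀ v ∈ G.V, G.tm v = true → H.tm (G.k v) = true
  hU : ∀ e ∈ H.U, e ∈ G.U ∧ (e ∈ G.E → G.k (G.src e) ≠ G.k (G.dst e))

@[simp] theorem apps_nil (G : Gr) : G.apps [] = G := rfl
@[simp] theorem apps_cons (G : Gr) (o : Op) (l : List Op) :
    G.apps (o :: l) = (G.app o).apps l := rfl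
theorem apps_append (G : Gr) (l m : List Op) : G.apps (l ++ m) = (G.apps l).apps m :=
  List.foldl_append
theorem oks_append (G : Gr) (l m : List Op) : G.oks (l ++ m) ↔ G.oks l ∧ (G.apps l).oks m := by
  induction l generalizing G with
  | nil => simp [oks]
  | cons o l ih => simp [oks, ih, and_assoc]

end Gr

/-- a log: an upper bound of its weight and the entries (vertex, deficit) -/
abbrev Lg : Type := ℕ × List (ℕ × ℕ)

/-- parameters of a level: unit, boundary factor, terminal weight, clamp, number of batch levels,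
batch ratio, first and last expansion constant, sparsity parameter of the flows, fuel,
the empty logs -/
structure Par where
  un : ℕ
  be : ℕ
  ta : ℕ
  B : ℕ
  L : ℕ
  b : ℕ
  c0 : ℕ
  cL : ℕ
  F : ℕ
  z0 : List Lg

/-- the state of a level -/
structure Lv where
  src : Arr ℕ
  dst : Arr ℕ
  raw : Arr ℕ
  al : Arr Bool
  tm : Arr Bool
  adj : Arr (List ℕ)
  cl : Arr ℕ
  D : Arr ℕ
  mu : Arr ℕ
  mem : Arr (List ℕ)
  N0 : Arr ℕ
  lg : Arr (List Lg)
  nid : ℕ
  dirty : List ℕ

/-- the graph of a state -/
def Lv.gr (s : Lv) (V U : Finset ℕ) : Gr :=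
  ⟨V, U, s.src.get, s.dst.get, s.raw.get, s.al.get, s.tm.get, s.adj.get, s.cl.get⟩

/-- weight of an operation -/
def W (un be ta : ℕ) : Op → ℕ
  | .nv _ _ S Sm => be + S.length + ta * Sm.length
  | .ins _ _ _ u => 2 * (u / un + be)
  | .mv _ _ _ u => u / un + be
  | .del _ => 1
  | .mk _ => ta

def Ws (un be ta : ℕ) (l : List Op) : ℕ := (l.map (W un be ta)).sum

/-! ## programs -/

/-- clamped increment -/
def inc (p : Par) (a : Arr ℕ) (v x : ℕ) : Arr ℕ := a.set v (min (a.get v + x) p.B)

/-- new state, entries to log, operations for the next level -/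
abbrev Res : Type := Lv × List (ℕ × ℕ) × List Op

def coreNv (p : Par) (y x : ℕ) (s : Lv) : Res :=
  ({ s with
      cl := s.cl.set y (s.cl.get x), adj := s.adj.set y [], tm := s.tm.set y false
      mem := s.mem.set (s.cl.get x) (y :: s.mem.get (s.cl.get x))
      D := s.D.set y p.be, mu := s.mu.set y p.be }, [(y, p.be)], [])

def coreIns (p : Par) (e a b u : ℕ) (s : Lv) : Res :=
  ({ s with
      src := s.src.set e a, dst := s.dst.set e b, raw := s.raw.set e u, al := s.al.set e true
      adj := (s.adj.set a (e :: s.adj.get a)).set b (e :: s.adj.get b)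
      D := inc p (inc p s.D a (min (u / p.un + p.be) p.B)) b (min (u / p.un + p.be) p.B)
      mu := inc p (inc p s.mu a (min (u / p.un + p.be) p.B)) b (min (u / p.un + p.be) p.B) },
    [(a, min (u / p.un + p.be) p.B), (b, min (u / p.un + p.be) p.B)], [])

/-- the graph part of a move -/
def mvG (p : Par) (e x y u : ℕ) (s : Lv) : Lv :=
  { s with
      src := s.src.set e (if s.src.get e = x then y else s.src.get e)
      dst := s.dst.set e (if s.src.get e = x then s.dst.get e else y)
      adj := s.adj.set y (e :: s.adj.get y)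
      D := inc p s.D y (min (u / p.un + p.be) p.B) }

def coreMv (p : Par) (e x y u : ℕ) (s : Lv) : Res :=
  if s.cl.get (s.src.get e) = s.cl.get (s.dst.get e) then
    ({ mvG p e x y u s with mu := inc p s.mu y (min (u / p.un + p.be) p.B) },
      [(y, min (u / p.un + p.be) p.B), (s.src.get e, min (p.cL * (u / p.un)) p.B),
        (s.dst.get e, min (p.cL * (u / p.un)) p.B)], [])
  else
    ({ mvG p e x y u s with
        mu := inc p (s.mu.set x (s.mu.get x - p.be * (u / p.un))) y
          (min (u / p.un + p.be + p.be * (u / p.un)) p.B) },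
      [(y, min (u / p.un + p.be + p.be * (u / p.un)) p.B)], [])

def coreDel (p : Par) (e : ℕ) (s : Lv) : Res :=
  if s.cl.get (s.src.get e) = s.cl.get (s.dst.get e) then
    ({ s with al := s.al.set e false },
      [(s.src.get e, min (p.cL * (s.raw.get e / p.un)) p.B),
        (s.dst.get e, min (p.cL * (s.raw.get e / p.un)) p.B)], [])
  else ({ s with al := s.al.set e false }, [], [.del e])

def coreMk (p : Par) (v : ℕ) (s : Lv) : Res :=
  if s.tm.get v = true then (s, [], [])
  else ({ s with tm := s.tm.set v true, mu := inc p s.mu v p.ta }, [(v, p.ta)], [.mk (s.cl.get v)])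

def core (p : Par) (o : Op) (s : Lv) : Res :=
  match o with
  | .nv y x _ _ => coreNv p y x s
  | .ins e a b u => coreIns p e a b u s
  | .mv e x y u => coreMv p e x y u s
  | .del e => coreDel p e s
  | .mk v => coreMk p v s

def push (p : Par) (x : ℕ × ℕ) (a : Lg) : Lg := (min (a.1 + x.2 + 1) p.B, x :: a.2)

/-- log an entry in all logs of the cluster of its vertex -/
def logP (p : Par) (x : ℕ × ℕ) (s : Lv) : Lv :=
  { s with lg := s.lg.set (s.cl.get x.1) ((s.lg.get (s.cl.get x.1)).map (push p x))
           dirty := s.cl.get x.1 :: s.dirty }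

def logR (p : Par) (x : ℕ × ℕ) (s : Lv) : R Lv :=
  mapP (push p x) (s.lg.get (s.cl.get x.1)) >>= fun l =>
    pure { s with lg := s.lg.set (s.cl.get x.1) l, dirty := s.cl.get x.1 :: s.dirty }

def logsP (p : Par) (l : List (ℕ × ℕ)) (s : Lv) : Lv := l.foldl (fun s x => logP p x s) s

/-- state and the reversed list of the operations for the next level -/
abbrev So : Type := Lv × List Op

def finP (p : Par) (r : Res) (o : List Op) : So := (logsP p r.2.1 r.1, r.2.2.reverse ++ o)

def finR (p : Par) (r : Res) (o : List Op) : R So :=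
  foldL (logR p) r.2.1 r.1 >>= fun s => revAppL r.2.2 o >>= fun o' => pure (s, o')

def applyP (p : Par) (l : List Op) (so : So) : So :=
  l.foldl (fun so o => finP p (core p o so.1) so.2) so

def applyR (p : Par) (l : List Op) (so : So) : R So :=
  foldL (fun o so => finR p (core p o so.1) so.2) l so

/-- the edge `x.2` seen from the vertex `x.1` that has just been moved from `X` to `y` -/
def cutE (p : Par) (X y : ℕ) (x : ℕ × ℕ) (s : Lv) : Res :=
  if s.al.get x.2 = true ∧ (s.src.get x.2 = x.1 ∨ s.dst.get x.2 = x.1) ∧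
      s.cl.get (s.src.get x.2) ≠ s.cl.get (s.dst.get x.2) then
    if s.cl.get (s.src.get x.2) = X ∨ s.cl.get (s.dst.get x.2) = X then
      ({ s with mu := inc p (inc p s.mu (s.src.get x.2)
                  (min (p.be * (s.raw.get x.2 / p.un)) p.B)) (s.dst.get x.2)
                  (min (p.be * (s.raw.get x.2 / p.un)) p.B) },
        [(if s.src.get x.2 = x.1 then s.dst.get x.2 else s.src.get x.2,
          min ((p.cL + p.be) * (s.raw.get x.2 / p.un)) p.B)],
        [.ins x.2 (s.cl.get (s.src.get x.2)) (s.cl.get (s.dst.get x.2)) (s.raw.get x.2)])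
    else (s, [], [.mv x.2 X y (s.raw.get x.2)])
  else (s, [], [])

/-- relabel `S` -/
def relab (p : Par) (S : List ℕ) (cl : Arr ℕ) (s : Lv) : Lv :=
  { s with cl := cl, mem := s.mem.set s.nid S, N0 := s.N0.set s.nid 0, lg := s.lg.set s.nid p.z0
           nid := s.nid + 1 }

/-- log the whole measure of `S` -/
def logMu (p : Par) (S : List ℕ) (s : Lv) : R Lv := foldL (fun v s => logR p (v, s.mu.get v) s) S s

/-- split `S` off the cluster `X` -/
def cutR (p : Par) (X : ℕ) (S : List ℕ) (so : So) : R So :=
  logMu p S so.1 >>= fun s1 =>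
  setAllP (fun _ => so.1.nid) S so.1.cl >>= fun cl =>
  filterP so.1.tm.get S >>= fun Sm =>
  flatMapL (fun v => mapP (fun e => (v, e)) (so.1.adj.get v)) S >>= fun prs =>
  foldL (fun x so' => finR p (cutE p X so.1.nid x so'.1) so'.2) prs
    (relab p S cl s1, .nv so.1.nid X S Sm :: so.2) >>= fun so3 =>
  logMu p S so3.1 >>= fun s4 =>
  pure (s4, if Sm.isEmpty then so3.2 else .mk so.1.nid :: so3.2)

/-- the scan for the first overfull log: index, threshold, constant of the previous level,
constant of this level, previous log, found -/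
abbrev Sc : Type := ℕ × ℕ × ℕ × ℕ × Lg × Bool

def scanS (p : Par) (a : Lg) (t : Sc) : Sc :=
  if t.2.2.2.2.2 = true then t
  else if t.2.1 < a.1 then (t.1, t.2.1, t.2.2.1, t.2.2.2.1, t.2.2.2.2.1, true)
  else (t.1 + 1, t.2.1 / p.b, t.2.2.2.1, min (16 * t.2.2.2.1) p.B, a, false)

/-- the trimming flow: state, cluster, capacity factor, supplies, start list -/
abbrev Lf : Type := Lv × ℕ × ℕ × Arr ℕ × List ℕ → R (List ℕ × List (ℕ × ℕ))

/-- the cut-matching game: state, cluster, members, their measure -/
abbrev Fr : Type := Lv × ℕ × List ℕ × ℕ → R (List ℕ ⊕ List ℕ)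

/-- a log from its entries -/
def mkLg (p : Par) (d : List (ℕ × ℕ)) : R Lg :=
  foldP (fun x n => min (n + x.2 + 1) p.B) d 0 >>= fun n => pure (n, d)

def batchR (p : Par) (lf : Lf) (X r c : ℕ) (d : List (ℕ × ℕ)) (so : So) : R So :=
  filterP (fun x => decide (so.1.cl.get x.1 = X)) d >>= fun d1 =>
  mapP Prod.fst d1 >>= fun W0 =>
  foldP (fun x a => inc p a x.1 (min (2 * x.2) p.B)) d1 (Arr.cst 0) >>= fun a1 =>
  call lf (so.1, X, min (2 * c) p.B, a1, W0) >>= fun r1 =>
  setAllP (fun v => min (2 * so.1.mu.get v) p.B) r1.1 (Arr.cst 0) >>= fun a2 =>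
  call lf (so.1, X, min (8 * c) p.B, a2, r1.1) >>= fun r2 =>
  revAppL r1.2 r2.2 >>= fun d2 => revAppL r1.2 d2 >>= fun d3 => mkLg p d3 >>= fun a =>
  takeL r (so.1.lg.get X) >>= fun l1 => replL (p.L + 1 - r) a [] >>= fun l2 =>
  appL l1 l2 >>= fun l =>
  if r2.1.isEmpty then pure ({ so.1 with lg := so.1.lg.set X l, dirty := X :: so.1.dirty }, so.2)
  else cutR p X r2.1 ({ so.1 with lg := so.1.lg.set X l }, so.2)

def freshR (p : Par) (fr : Fr) (X : ℕ) (so : So) : R So :=
  filterP (fun v => decide (so.1.cl.get v = X)) (so.1.mem.get X) >>= fun A =>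
  foldP (fun v n => min (n + so.1.mu.get v) p.B) A 0 >>= fun N =>
  (if N = 0 then pure (.inr []) else call fr (so.1, X, A, N)) >>= fun o =>
  match o with
  | .inl S => cutR p X S ({ so.1 with mem := so.1.mem.set X A }, so.2)
  | .inr fk => mapP (fun v => (v, 2)) fk >>= fun d => mkLg p d >>= fun a =>
      replL (p.L + 1) a [] >>= fun l =>
      pure ({ so.1 with mem := so.1.mem.set X A, N0 := so.1.N0.set X N, lg := so.1.lg.set X l
                        dirty := X :: so.1.dirty }, so.2)

/-- treat the cluster `X` -/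
def fixX (p : Par) (lf : Lf) (fr : Fr) (X : ℕ) (so : So) : R So :=
  foldP (scanS p) (so.1.lg.get X) (0, so.1.N0.get X / 16, 0, p.c0, (0, []), false) >>= fun t =>
  if t.2.2.2.2.2 = true then
    if t.1 = 0 then freshR p fr X so else batchR p lf X t.1 t.2.2.1 t.2.2.2.2.1.2 so
  else pure so

def fixS (p : Par) (lf : Lf) (fr : Fr) (so : So) : R So :=
  match so.1.dirty with
  | [] => pure so
  | X :: l => fixX p lf fr X ({ so.1 with dirty := l }, so.2)

/-- one batch of operations: the new state and the operations for the next level -/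
def runLv (p : Par) (lf : Lf) (fr : Fr) (l : List Op) (s : Lv) : R So :=
  applyR p l (s, []) >>= fun so =>
  whileF (fun so : So => !so.1.dirty.isEmpty) (fixS p lf fr) p.F so >>= fun so' =>
  revL so'.2 >>= fun o => pure (so'.1, o)

end Crest.Agent.N325.Hi
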