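import Mathlib

/-!
# Row 325, module M4: the entropy potential of a partition (helper32)

`ent` is the discrete integral of the binary logarithm.  Splitting a mass gains the smaller
part, growing a mass below `2 ^ L` costs `L` per unit.  `entP V cl mu` is the sum of `ent` over
the classes of the labelling `cl` of the finite set `V`, weighted by `mu`.
-/

set_option autoImplicit false

namespace Crest.Agent.N325.Hi

open Finset

/-- discrete integral of the binary logarithm -/
def ent (x : ℕ) : ℕ := ∑ j ∈ range x, Nat.log 2 (j + 1)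

@[simp] lemma ent_zero : ent 0 = 0 := rfl

lemma ent_add (x d : ℕ) : ent (x + d) = ent x + ∑ j ∈ range d, Nat.log 2 (x + j + 1) := by
  simp only [ent, sum_range_add]

lemma ent_mono {x y : ℕ} (h : x ≤ y) : ent x ≤ ent y := by
  obtain ⟨d, rfl⟩ := Nat.exists_eq_add_of_le h
  rw [ent_add]; omega

/-- growing a mass below `2 ^ L` costs `L` per unit -/
lemma ent_add_le {x d L : ℕ} (h : x + d ≤ 2 ^ L) : ent (x + d) ≤ ent x + L * d := by
  rw [ent_add]
  refine Nat.add_le_add_left ?_ _
  calc ∑ j ∈ range d, Nat.log 2 (x + j + 1) ≤ ∑ _j ∈ range d, L := by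
        refine sum_le_sum fun j hj => ?_
        have hj' := mem_range.1 hj
        calc Nat.log 2 (x + j + 1) ≤ Nat.log 2 (2 ^ L) := Nat.log_mono_right (by omega)
          _ = L := Nat.log_pow (by norm_num) L
    _ = L * d := by simp [mul_comm]

lemma ent_le_of_le {x y d L : ℕ} (h : y ≤ x + d) (hy : y ≤ 2 ^ L) : ent y ≤ ent x + L * d := by
  rcases le_total y x with h1 | h1
  · exact (ent_mono h1).trans (Nat.le_add_right _ _)
  · obtain ⟨e, rfl⟩ := Nat.exists_eq_add_of_le h1
    exact (ent_add_le hy).trans (Nat.add_le_add_left (Nat.mul_le_mul_left _ (by omega)) _)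

lemma ent_le {x L : ℕ} (h : x ≤ 2 ^ L) : ent x ≤ L * x := by
  simpa using ent_add_le (x := 0) (d := x) (L := L) (by simpa using h)

lemma ent_split_le {a b : ℕ} (h : a ≤ b) : ent a + ent b + a ≤ ent (a + b) := by
  rw [add_comm a b, ent_add]
  have : ent a + a ≤ ∑ j ∈ range a, Nat.log 2 (b + j + 1) := by
    calc ent a + a = ∑ j ∈ range a, (Nat.log 2 (j + 1) + 1) := by
          simp [ent, sum_add_distrib]
      _ ≤ _ := by
          refine sum_le_sum fun j hj => ?_
          have hj' := mem_range.1 hj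
          calc Nat.log 2 (j + 1) + 1 = Nat.log 2 ((j + 1) * 2) :=
                (Nat.log_mul_base (by norm_num) (by omega)).symm
            _ ≤ _ := Nat.log_mono_right (by omega)
  omega

/-- splitting a mass gains the smaller part -/
lemma ent_split (a b : ℕ) : ent a + ent b + min a b ≤ ent (a + b) := by
  rcases le_total a b with h | h
  · rw [min_eq_left h]; exact ent_split_le h
  · rw [min_eq_right h, add_comm a b, add_comm (ent a)]; exact ent_split_le h

/-- the mass of the class `c` -/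
def mass (V : Finset ℕ) (cl mu : ℕ → ℕ) (c : ℕ) : ℕ := ∑ v ∈ V with cl v = c, mu v

/-- the entropy potential of the partition of `V` by the labels `cl` -/
def entP (V : Finset ℕ) (cl mu : ℕ → ℕ) : ℕ := ∑ c ∈ V.image cl, ent (mass V cl mu c)

lemma mass_eq_zero {V : Finset ℕ} {cl mu : ℕ → ℕ} {c : ℕ} (h : ∀ v ∈ V, cl v ≠ c) :
    mass V cl mu c = 0 := by
  refine sum_eq_zero fun v hv => ?_
  obtain ⟨h1, h2⟩ := mem_filter.1 hv
  exact absurd h2 (h v h1)

lemma mass_le (V : Finset ℕ) (cl mu : ℕ → ℕ) (c : ℕ) : mass V cl mu c ≤ ∑ v ∈ V, mu v :=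
  sum_le_sum_of_subset (filter_subset _ _)

lemma sum_mass {V I : Finset ℕ} {cl : ℕ → ℕ} (mu : ℕ → ℕ) (h : ∀ v ∈ V, cl v ∈ I) :
    ∑ c ∈ I, mass V cl mu c = ∑ v ∈ V, mu v :=
  sum_fiberwise_of_maps_to h mu

lemma entP_eq {V I : Finset ℕ} {cl : ℕ → ℕ} (mu : ℕ → ℕ) (h : ∀ v ∈ V, cl v ∈ I) :
    entP V cl mu = ∑ c ∈ I, ent (mass V cl mu c) := by
  refine sum_subset (fun c hc => ?_) fun c _ hc => ?_
  · obtain ⟨v, hv, rfl⟩ := mem_image.1 hc
    exact h v hv
  · rw [mass_eq_zero fun v hv hv' => hc (mem_image.2 ⟨v, hv, hv'⟩), ent_zero]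

/-- General growth: new vertices, new labels and weights; the class masses grow by `dl`. -/
theorem entP_le_of_mass {V V' I : Finset ℕ} {cl cl' mu mu' dl : ℕ → ℕ} {L : ℕ}
    (hI : ∀ v ∈ V', cl' v ∈ I) (h : ∀ c ∈ I, mass V' cl' mu' c ≤ mass V cl mu c + dl c)
    (hL : ∑ v ∈ V', mu' v ≤ 2 ^ L) :
    entP V' cl' mu' ≤ entP V cl mu + L * ∑ c ∈ I, dl c := by
  rw [entP_eq mu' hI, entP_eq (I := I ∪ V.image cl) mu
    (fun v hv => mem_union_right _ (mem_image_of_mem _ hv)), mul_sum]
  calc ∑ c ∈ I, ent (mass V' cl' mu' c) ≤ ∑ c ∈ I, (ent (mass V cl mu c) + L * dl c) :=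
        sum_le_sum fun c hc => ent_le_of_le (h c hc) ((mass_le _ _ _ _).trans hL)
    _ ≤ _ := by
        rw [sum_add_distrib]
        exact Nat.add_le_add_right (sum_le_sum_of_subset subset_union_left) _

lemma entP_le {V : Finset ℕ} {cl mu : ℕ → ℕ} {L : ℕ} (hL : ∑ v ∈ V, mu v ≤ 2 ^ L) :
    entP V cl mu ≤ L * ∑ v ∈ V, mu v := by
  have h := entP_le_of_mass (V := ∅) (V' := V) (I := V.image cl) (cl := cl) (cl' := cl) (mu := mu)
    (mu' := mu) (dl := mass V cl mu) (fun v hv => mem_image_of_mem _ hv)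
    (fun c _ => Nat.le_add_left _ _) hL
  rw [sum_mass mu fun v hv => mem_image_of_mem _ hv] at h
  simpa [entP] using h

/-- Growth of the weights (and new vertices, which may carry any labels). -/
theorem entP_grow {V V' : Finset ℕ} {cl cl' mu mu' : ℕ → ℕ} {L : ℕ} (hV : V ⊆ V')
    (hcl : ∀ v ∈ V, cl' v = cl v) (hmu : ∀ v ∈ V, mu v ≤ mu' v) (hL : ∑ v ∈ V', mu' v ≤ 2 ^ L) :
    entP V' cl' mu' + L * ∑ v ∈ V, mu v ≤ entP V cl mu + L * ∑ v ∈ V', mu' v := by
  have hm : ∀ c, mass V cl mu c ≤ mass V' cl' mu' c := fun c =>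
    calc mass V cl mu c ≤ ∑ v ∈ V with cl v = c, mu' v :=
          sum_le_sum fun v hv => hmu v (mem_filter.1 hv).1
      _ ≤ _ := sum_le_sum_of_subset fun v hv => by
          obtain ⟨h1, h2⟩ := mem_filter.1 hv
          exact mem_filter.2 ⟨hV h1, (hcl v h1).trans h2⟩
  have hI : ∀ v ∈ V', cl' v ∈ V'.image cl' := fun v hv => mem_image_of_mem _ hv
  have h := entP_le_of_mass (V := V) (cl := cl) (mu := mu)
    (dl := fun c => mass V' cl' mu' c - mass V cl mu c) hI
    (fun c _ => by have := hm c; omega) hL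
  have h2 : ∑ c ∈ V'.image cl', (mass V' cl' mu' c - mass V cl mu c) + ∑ v ∈ V, mu v
      = ∑ v ∈ V', mu' v := by
    rw [← sum_mass (I := V'.image cl') mu' hI, ← sum_mass (I := V'.image cl') (cl := cl) mu
      (fun v hv => hcl v hv ▸ hI v (hV hv)), ← sum_add_distrib]
    exact sum_congr rfl fun c _ => Nat.sub_add_cancel (hm c)
  rw [← h2, mul_add]; omega

/-- Growth at one old vertex. -/
theorem entP_update {V : Finset ℕ} {cl mu : ℕ → ℕ} {L v x : ℕ} (hv : v ∈ V)
    (hL : ∑ w ∈ V, mu w + x ≤ 2 ^ L) :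
    entP V cl (Function.update mu v (mu v + x)) ≤ entP V cl mu + L * x := by
  have hs : ∑ w ∈ V, Function.update mu v (mu v + x) w = ∑ w ∈ V, mu w + x := by
    rw [sum_update_of_mem hv, ← add_sum_erase V mu hv, sdiff_singleton_eq_erase]; omega
  have h := entP_grow (V := V) (V' := V) (cl := cl) (cl' := cl) (mu := mu)
    (mu' := Function.update mu v (mu v + x)) (L := L) Subset.rfl (fun _ _ => rfl)
    (fun w _ => by
      by_cases hw : w = v
      · subst hw; simp
      · simp [hw]) (hs ▸ hL)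
  rw [hs, mul_add] at h; omega

/-- A cut: the part `S` of the class `c` gets the new label `c'`; the smaller side is gained. -/
theorem entP_cut {V S : Finset ℕ} {cl cl' mu : ℕ → ℕ} {c c' : ℕ} (hS : S ⊆ V)
    (hc : ∀ v ∈ S, cl v = c) (hnew : ∀ v ∈ V, cl v ≠ c') (h1 : ∀ v ∈ S, cl' v = c')
    (h2 : ∀ v ∈ V, v ∉ S → cl' v = cl v) :
    entP V cl' mu + min (∑ v ∈ S, mu v) (mass V cl mu c - ∑ v ∈ S, mu v) ≤ entP V cl mu := by
  rcases S.eq_empty_or_nonempty with rfl | ⟨w, hw⟩
  · have : entP V cl' mu = entP V cl mu := by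
      have h3 : ∀ v ∈ V, cl' v = cl v := fun v hv => h2 v hv (notMem_empty v)
      rw [entP, entP, image_congr (fun v hv => h3 v hv)]
      exact sum_congr rfl fun d _ => congrArg ent
        (sum_congr (filter_congr fun v hv => by rw [h3 v hv]) fun _ _ => rfl)
    simp [this]
  have hcc : c ≠ c' := fun h => hnew w (hS hw) ((hc w hw).trans h)
  set I := insert c' (V.image cl) with hI
  have hc'I : c' ∉ V.image cl := fun h => by
    obtain ⟨v, hv, h⟩ := mem_image.1 h
    exact hnew v hv h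
  have hcI : c ∈ V.image cl := mem_image.2 ⟨w, hS hw, hc w hw⟩
  have e1 : mass V cl' mu c' = ∑ v ∈ S, mu v := by
    refine sum_congr ?_ fun _ _ => rfl
    ext v
    simp only [mem_filter]
    refine ⟨fun h => ?_, fun h => ⟨hS h, h1 v h⟩⟩
    by_contra hv
    exact hnew v h.1 ((h2 v h.1 hv).symm.trans h.2)
  have e2 : mass V cl' mu c + ∑ v ∈ S, mu v = mass V cl mu c := by
    rw [mass, mass, ← sum_union]
    · refine sum_congr ?_ fun _ _ => rfl
      ext v
      simp only [mem_union, mem_filter]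
      by_cases hv : v ∈ S
      · simp [hv, hS hv, hc v hv]
      · simp only [hv, or_false]
        exact and_congr_right fun hV => by rw [h2 v hV hv]
    · rw [disjoint_left]
      intro v hv hv'
      exact hcc ((mem_filter.1 hv).2.symm.trans (h1 v hv'))
  have e3 : ∀ d, d ≠ c → d ≠ c' → mass V cl' mu d = mass V cl mu d := fun d hd hd' => by
    refine sum_congr (filter_congr fun v hv => ?_) fun _ _ => rfl
    by_cases hvS : v ∈ S
    · rw [h1 v hvS, hc v hvS]; exact ⟨fun h => absurd h.symm hd', fun h => absurd h.symm hd⟩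
    · rw [h2 v hv hvS]
  have e4 : ∑ d ∈ (V.image cl).erase c, ent (mass V cl' mu d)
      = ∑ d ∈ (V.image cl).erase c, ent (mass V cl mu d) := sum_congr rfl fun d hd => by
    rw [e3 d (ne_of_mem_erase hd) fun h => hc'I (h ▸ mem_of_mem_erase hd)]
  rw [entP_eq (I := I) (cl := cl') mu (fun v hv => by
      by_cases hvS : v ∈ S
      · rw [h1 v hvS]; exact mem_insert_self _ _
      · rw [h2 v hv hvS]; exact mem_insert_of_mem (mem_image_of_mem _ hv)),
    hI, sum_insert hc'I, entP, ← add_sum_erase _ _ hcI, ← add_sum_erase _ _ hcI, e1, e4]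
  have h := ent_split (∑ v ∈ S, mu v) (mass V cl' mu c)
  rw [add_comm (∑ v ∈ S, mu v) (mass V cl' mu c), e2] at h
  have : mass V cl mu c - ∑ v ∈ S, mu v = mass V cl' mu c := by omega
  rw [this]; omega

end Crest.Agent.N325.Hi
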