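import Crest.Agent.N325.Hi.Defs

/-!
# Row 325, module M4 (helper86): invariant, potentials and the specifications of the subroutines
-/

set_option autoImplicit false
open Finset

namespace Crest.Agent.N325.Hi

/-- the number of units of an edge -/
def Gr.uh (G : Gr) (un e : ℕ) : ℕ := G.raw e / un

/-- the units of the alive edges between `A` and `B` -/
def Gr.xc (G : Gr) (un : ℕ) (A B : Finset ℕ) : ℕ :=
  ∑ e ∈ G.E, if (G.src e ∈ A ∧ G.dst e ∈ B) ∨ (G.src e ∈ B ∧ G.dst e ∈ A) then G.uh un e else 0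

/-- the units of the boundary edges at `v` -/
def Gr.bd (G : Gr) (un v : ℕ) : ℕ :=
  ∑ e ∈ G.E, if (G.src e = v ∨ G.dst e = v) ∧ G.k (G.src e) ≠ G.k (G.dst e) then G.uh un e else 0

/-- the deficit of the set `T` in the list of entries `d` -/
def dT (d : List (ℕ × ℕ)) (T : Finset ℕ) : ℕ := (d.map fun x => if x.1 ∈ T then x.2 else 0).sum

/-- the weight of a list of entries -/
def tw (d : List (ℕ × ℕ)) : ℕ := (d.map fun x => x.2 + 1).sum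

/-- expansion certificate of the set `A` with constant `c` and deficits `d` -/
def Crt (G : Gr) (un : ℕ) (mu : ℕ → ℕ) (A : Finset ℕ) (c : ℕ) (d : List (ℕ × ℕ)) (ν : ℕ → ℕ)
    (N : ℕ) : Prop :=
  ∀ T ⊆ A, 2 * ∑ v ∈ T, ν v ≤ N → ∑ v ∈ T, mu v ≤ c * G.xc un T (A \ T) + dT d T

/-- thresholds -/
def thr (b N : ℕ) : ℕ → ℕ
  | 0 => N / 16
  | r + 1 => thr b N r / b

/-- the log number `r` of the cluster `X` -/
def Lv.lgr (s : Lv) (X r : ℕ) : Lg := (s.lg.get X).getD r (0, [])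

/-- the weight of a list of logs -/
def lw : List Lg → ℕ
  | [] => 0
  | a :: l => 2 ^ l.length * a.1 + lw l

/-- ghost constants: logarithm of the total measure, sparsity of the cuts, balance of the fresh
cuts, sparsity parameter and cost of the flows, cost of the game -/
structure Cst where
  lg : ℕ
  Q : ℕ
  zq : ℕ
  Dq : ℕ
  Cl : ℕ
  Cf : ℕ

structure Par.Ok (p : Par) (κ : Cst) : Prop where
  un : 0 < p.un
  be : 0 < p.be
  ta : 0 < p.ta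
  b : 0 < p.b
  lg : 0 < κ.lg
  cL : p.cL = p.c0 * 16 ^ p.L
  z0 : p.z0 = List.replicate (p.L + 1) (0, [])
  hB : (16 * p.cL + p.be + 2) * 2 ^ κ.lg ≤ p.B
  hb : 2 ^ κ.lg ≤ p.b ^ p.L
  hQ : 8 * p.be * κ.lg ≤ κ.Q
  hc : κ.Q ≤ 4 * p.c0
  hD : 640 * p.cL * p.b ≤ κ.Dq

/-- the graph part of the invariant -/
structure Inv0 (p : Par) (s : Lv) (G : Gr) (C : Finset ℕ) : Prop where
  eq : s.gr G.V G.U = G
  wf : G.WF
  kC : ∀ v ∈ G.V, G.k v ∈ C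
  nid : ∀ X ∈ C, X < s.nid
  hD : ∀ v ∈ G.V, p.be + ((G.adj v).map fun e => G.uh p.un e + p.be).sum ≤ s.D.get v
  hmu : ∀ v ∈ G.V, s.D.get v + p.be * G.bd p.un v + (if G.tm v = true then p.ta else 0)
    ≤ s.mu.get v
  mem : ∀ X ∈ C, (s.mem.get X).Nodup ∧ (∀ v ∈ s.mem.get X, v ∈ G.V) ∧
    ∀ v ∈ G.V, G.k v = X → v ∈ s.mem.get X
  dty : ∀ X ∈ s.dirty, X ∈ C

/-- the weight of the pending entries of the cluster `X` -/
def tX (G : Gr) (pd : List (ℕ × ℕ)) (X : ℕ) : ℕ :=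
  (pd.map fun x => if G.k x.1 = X then x.2 + 1 else 0).sum

/-- the numerical invariant of the cluster `X`; the entries `pd` are still to be logged -/
structure InvA (p : Par) (κ : Cst) (s : Lv) (G : Gr) (pd : List (ℕ × ℕ)) (X : ℕ) : Prop where
  len : (s.lg.get X).length = p.L + 1
  acc : ∀ a ∈ s.lg.get X, tw a.2 ≤ a.1 ∨ p.B ≤ a.1
  N0 : s.N0.get X ≤ 2 ^ κ.lg
  up : ∑ v ∈ G.cs X, s.mu.get v ≤ s.N0.get X + (s.lgr X 0).1 + tX G pd X ∨ p.B ≤ (s.lgr X 0).1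
  lo : s.N0.get X ≤ ∑ v ∈ G.cs X, s.mu.get v + (s.lgr X 0).1 + tX G pd X

/-- the invariant of the cluster `X` -/
structure InvX (p : Par) (κ : Cst) (s : Lv) (G : Gr) (pd : List (ℕ × ℕ)) (X : ℕ) : Prop
    extends InvA p κ s G pd X where
  crt : s.N0.get X / 16 < (s.lgr X 0).1 + tX G pd X ∨
    ∃ ν : ℕ → ℕ, ∑ v ∈ G.cs X, ν v ≤ s.N0.get X ∧ ∀ r ≤ p.L,
      Crt G p.un s.mu.get (G.cs X) (p.c0 * 16 ^ r) (pd ++ (s.lgr X r).2) ν (s.N0.get X)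
  qt : X ∈ s.dirty ∨ 0 < tX G pd X ∨ ∀ r ≤ p.L, (s.lgr X r).1 ≤ thr p.b (s.N0.get X) r

/-- the invariant up to the pending entries `pd` -/
structure InvM (p : Par) (κ : Cst) (s : Lv) (G : Gr) (C : Finset ℕ) (pd : List (ℕ × ℕ)) : Prop
    extends Inv0 p s G C where
  pv : ∀ x ∈ pd, x.1 ∈ G.V
  cx : ∀ X ∈ C, InvX p κ s G pd X

/-- **the invariant** -/
abbrev Inv (p : Par) (κ : Cst) (s : Lv) (G : Gr) (C : Finset ℕ) : Prop := InvM p κ s G C []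

/-- the state before `S` is split off `X` -/
structure PreCut (p : Par) (κ : Cst) (s : Lv) (G : Gr) (C : Finset ℕ) (X : ℕ) (S : Finset ℕ) : Prop
    extends Inv0 p s G C, InvA p κ s G [] X where
  hX : X ∈ C
  cx : ∀ Y ∈ C, Y ≠ X → InvX p κ s G [] Y
  crt : s.N0.get X / 16 < (s.lgr X 0).1 ∨
    ∃ ν : ℕ → ℕ, ∑ v ∈ G.cs X, ν v ≤ s.N0.get X ∧ ∀ r ≤ p.L, ∀ T ⊆ G.cs X \ S,
      2 * ∑ v ∈ T, ν v ≤ s.N0.get X → ∑ v ∈ T, s.mu.get v ≤
        p.c0 * 16 ^ r * G.xc p.un T ((G.cs X \ S) \ T) + p.cL * G.xc p.un T S + dT (s.lgr X r).2 T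

/-- total measure -/
def tot (s : Lv) (G : Gr) : ℕ := ∑ v ∈ G.V, s.mu.get v

/-- the entropy potential -/
def Th (κ : Cst) (s : Lv) (G : Gr) : ℕ := κ.lg * tot s G + entP G.V G.k s.mu.get

/-- price of a dirty mark, of a unit of a log, of a unit of an edge, of the entropy -/
def Wq (p : Par) : ℕ := 4 * p.L + 20
def Wk (p : Par) (κ : Cst) : ℕ := 2 * (20 * (κ.Cf + 30) + 12 * (κ.Cl + 30) * p.b + 4 * Wq p)
def Wu (p : Par) (κ : Cst) : ℕ := Wk p κ * 2 ^ (p.L + 1) + 2 * Wq p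
def Wa (p : Par) (κ : Cst) : ℕ := 2 * ((p.cL + p.be + 10) * Wu p κ + (κ.Cf + 30) * (κ.zq + 1))

/-- what is left per unit of a removed set -/
def Wx (p : Par) (κ : Cst) : ℕ := Wu p κ + (κ.Cf + 30) * (κ.zq + 1)

/-- the bookkeeping part of the potential -/
def Ph (p : Par) (κ : Cst) (s : Lv) (C : Finset ℕ) : ℕ :=
  Wk p κ * ∑ X ∈ C, lw (s.lg.get X) + Wq p * s.dirty.length + 2 * ∑ X ∈ C, (s.mem.get X).length

/-- the potential that pays the work -/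
def Psi (p : Par) (κ : Cst) (s : Lv) (G : Gr) (C : Finset ℕ) : ℕ :=
  Wa p κ * Th κ s G + 2 * p.cL * Wu p κ * ∑ e ∈ G.E, G.uh p.un e + Ph p κ s C

/-- price of a unit of weight of an operation -/
def Wc (p : Par) (κ : Cst) : ℕ := 2 * κ.lg * Wa p κ + (2 * p.cL + p.be + 6) * Wu p κ

/-- what the trimming flow delivers -/
structure Trim (p : Par) (κ : Cst) (s : Lv) (G : Gr) (X K : ℕ) (a : ℕ → ℕ) (P : List ℕ)
    (l : List (ℕ × ℕ)) : Prop where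
  nd : P.Nodup
  sub : P.toFinset ⊆ G.cs X
  sm : ∑ v ∈ P.toFinset, s.mu.get v ≤ ∑ v ∈ G.cs X, a v
  route : ∀ T ⊆ G.cs X \ P.toFinset, ∑ v ∈ T, a v + K * G.xc p.un T P.toFinset ≤
    ∑ v ∈ T, s.mu.get v + K * G.xc p.un T ((G.cs X \ P.toFinset) \ T) + dT l T
  few : κ.Dq * tw l ≤ 4 * K * ∑ v ∈ P.toFinset, s.mu.get v
  cut : K * G.xc p.un P.toFinset (G.cs X \ P.toFinset) + ∑ v ∈ P.toFinset, s.mu.get v ≤
    ∑ v ∈ P.toFinset, a v + tw l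

def TrimSpec (g : Gl) (p : Par) (κ : Cst) (lf : Lf) : Prop :=
  ∀ (s : Lv) (G : Gr) (C : Finset ℕ) (X K : ℕ) (a : Arr ℕ) (W0 : List ℕ), Inv0 p s G C →
    tot s G ≤ 2 ^ κ.lg → 0 < K → K ≤ 8 * p.cL → (∀ v ∈ W0, v ∈ G.cs X) →
    (∀ v, v ∉ W0 → a.get v = 0) → ∑ v ∈ G.cs X, a.get v ≤ 2 ^ κ.lg →
    Sp g (lf (s, X, K, a, W0)) fun r t => Trim p κ s G X K a.get r.1 r.2 ∧
      t ≤ κ.Cl * (∑ v ∈ G.cs X, a.get v + W0.length + 1)

/-- a cut that may be made -/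
structure CutOk (p : Par) (κ : Cst) (s : Lv) (G : Gr) (X : ℕ) (S : List ℕ) : Prop where
  nd : S.Nodup
  ne : S ≠ []
  sub : S.toFinset ⊆ G.cs X
  small : 2 * ∑ v ∈ S.toFinset, s.mu.get v ≤ ∑ v ∈ G.cs X, s.mu.get v
  sparse : κ.Q * G.xc p.un S.toFinset (G.cs X \ S.toFinset) ≤ ∑ v ∈ S.toFinset, s.mu.get v

/-- what the game delivers -/
def Fresh (p : Par) (κ : Cst) (s : Lv) (G : Gr) (X : ℕ) : List ℕ ⊕ List ℕ → Prop
  | .inl S => CutOk p κ s G X S ∧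
      ∑ v ∈ G.cs X, s.mu.get v ≤ κ.zq * ∑ v ∈ S.toFinset, s.mu.get v
  | .inr fk => 192 * fk.length ≤ ∑ v ∈ G.cs X, s.mu.get v ∧
      Crt G p.un s.mu.get (G.cs X) p.c0 (fk.map fun v => (v, 2)) s.mu.get
        (∑ v ∈ G.cs X, s.mu.get v)

def FreshSpec (g : Gl) (p : Par) (κ : Cst) (fr : Fr) : Prop :=
  ∀ (s : Lv) (G : Gr) (C : Finset ℕ) (X : ℕ) (A : List ℕ) (N : ℕ), Inv0 p s G C →
    tot s G ≤ 2 ^ κ.lg → A.Nodup → A.toFinset = G.cs X → N = ∑ v ∈ G.cs X, s.mu.get v → 0 < N →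
    Sp g (fr (s, X, A, N)) fun o t => Fresh p κ s G X o ∧ t ≤ κ.Cf * N

/-- the result of a piece of work that starts in `(s, G, C, H)` with pending output `o`:
the new state, the new outputs `n` (valid for the contraction), potentials.
`w` = weight of the external operations, `t` = cost. -/
structure Done (p : Par) (κ : Cst) (un' : ℕ) (s : Lv) (G : Gr) (C : Finset ℕ) (H : Gr)
    (w t : ℕ) (s' : Lv) (G' : Gr) (C' : Finset ℕ) (n : List Op) : Prop where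
  inv : Inv p κ s' G' C'
  oks : H.oks n
  rel : G'.Rel C' (H.apps n)
  nid : s.nid ≤ s'.nid
  new : ∀ X ∈ C', X ∈ C ∨ s.nid ≤ X
  th : Th κ s' G' ≤ Th κ s G + 2 * κ.lg * w
  out : Ws un' p.be p.ta n + 32 * Th κ s' G' ≤ 32 * Th κ s G + (64 * κ.lg + 1) * w
  psi : t + Psi p κ s' G' C' ≤ Psi p κ s G C + Wc p κ * w

end Crest.Agent.N325.Hi
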