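import Crest.Agent.N325.Hi.Inv

/-! Row 325, module M4 (helper86): logging of deficits. -/

set_option autoImplicit false
open Finset

namespace Crest.Agent.N325.Hi

variable {p : Par} {κ : Cst} {s : Lv} {G : Gr} {C : Finset ℕ} {g : Gl}

theorem Inv0.hcl (I : Inv0 p s G C) : s.cl.get = G.k := congrArg Gr.k I.eq
theorem Inv0.hsrc (I : Inv0 p s G C) : s.src.get = G.src := congrArg Gr.src I.eq
theorem Inv0.hdst (I : Inv0 p s G C) : s.dst.get = G.dst := congrArg Gr.dst I.eq
theorem Inv0.hraw (I : Inv0 p s G C) : s.raw.get = G.raw := congrArg Gr.raw I.eq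
theorem Inv0.hal (I : Inv0 p s G C) : s.al.get = G.al := congrArg Gr.al I.eq
theorem Inv0.htm (I : Inv0 p s G C) : s.tm.get = G.tm := congrArg Gr.tm I.eq
theorem Inv0.hadj (I : Inv0 p s G C) : s.adj.get = G.adj := congrArg Gr.adj I.eq

theorem Gr.mem_cs {X v : ℕ} : v ∈ G.cs X ↔ v ∈ G.V ∧ G.k v = X := mem_filter
theorem Gr.mem_E {e : ℕ} : e ∈ G.E ↔ e ∈ G.U ∧ G.al e = true := mem_filter

@[simp] theorem dT_nil (T : Finset ℕ) : dT [] T = 0 := rfl
@[simp] theorem dT_cons (x : ℕ × ℕ) (d : List (ℕ × ℕ)) (T : Finset ℕ) :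
    dT (x :: d) T = (if x.1 ∈ T then x.2 else 0) + dT d T := by simp [dT]
@[simp] theorem dT_append (d d' : List (ℕ × ℕ)) (T : Finset ℕ) :
    dT (d ++ d') T = dT d T + dT d' T := by simp [dT]
@[simp] theorem dT_reverse (d : List (ℕ × ℕ)) (T : Finset ℕ) : dT d.reverse T = dT d T := by
  simp [dT, List.map_reverse, List.sum_reverse]
@[simp] theorem tw_nil : tw [] = 0 := rfl
@[simp] theorem tw_cons (x : ℕ × ℕ) (d : List (ℕ × ℕ)) : tw (x :: d) = x.2 + 1 + tw d := by
  simp [tw]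
@[simp] theorem tw_append (d d' : List (ℕ × ℕ)) : tw (d ++ d') = tw d + tw d' := by simp [tw]
@[simp] theorem tw_reverse (d : List (ℕ × ℕ)) : tw d.reverse = tw d := by
  simp [tw, List.map_reverse, List.sum_reverse]
@[simp] theorem tX_nil (X : ℕ) : tX G [] X = 0 := rfl
@[simp] theorem tX_cons (x : ℕ × ℕ) (d : List (ℕ × ℕ)) (X : ℕ) :
    tX G (x :: d) X = (if G.k x.1 = X then x.2 + 1 else 0) + tX G d X := by simp [tX]
@[simp] theorem tX_append (d d' : List (ℕ × ℕ)) (X : ℕ) :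
    tX G (d ++ d') X = tX G d X + tX G d' X := by simp [tX]

theorem dT_mono (d : List (ℕ × ℕ)) {T T' : Finset ℕ} (h : T ⊆ T') : dT d T ≤ dT d T' := by
  induction d with
  | nil => simp
  | cons x d ih =>
    simp only [dT_cons]
    refine Nat.add_le_add ?_ ih
    split_ifs with h1 h2
    · exact le_rfl
    · exact absurd (h h1) h2
    · exact Nat.zero_le _
    · exact le_rfl

theorem dT_add_le (d : List (ℕ × ℕ)) (T : Finset ℕ) : dT d T + d.length ≤ tw d := by
  induction d with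
  | nil => simp
  | cons x d ih => simp only [dT_cons, tw_cons, List.length_cons]; split_ifs <;> omega

theorem length_le_tw (d : List (ℕ × ℕ)) : d.length ≤ tw d := by
  have := dT_add_le d ∅; omega

theorem Par.Ok.pow_le (hp : p.Ok κ) : 2 * 2 ^ κ.lg ≤ p.B :=
  le_trans (Nat.mul_le_mul_right _ (by omega)) hp.hB

theorem lw_push (x : ℕ × ℕ) (l : List Lg) :
    lw (l.map (push p x)) + (x.2 + 1) ≤ lw l + 2 ^ l.length * (x.2 + 1) := by
  induction l with
  | nil => simp [lw]
  | cons a l ih =>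
    simp only [List.map_cons, lw, List.length_map, List.length_cons, pow_succ]
    have : (push p x a).1 ≤ a.1 + (x.2 + 1) := by simp only [push]; omega
    have := Nat.mul_le_mul_left (2 ^ l.length) this
    nlinarith

theorem lgr_logP (x : ℕ × ℕ) (X r : ℕ) : (logP p x s).lgr X r =
    if X = s.cl.get x.1 ∧ r < (s.lg.get X).length then push p x (s.lgr X r) else s.lgr X r := by
  simp only [Lv.lgr, logP, Arr.get_set]
  by_cases h : X = s.cl.get x.1
  · subst h
    by_cases h2 : r < (s.lg.get (s.cl.get x.1)).length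
    · simp [h2, List.getD_eq_getElem?_getD]
    · simp [h2, List.getD_eq_getElem?_getD]
  · simp [h]

theorem logP_inv0 {x : ℕ × ℕ} (I : Inv0 p s G C) (hx : x.1 ∈ G.V) : Inv0 p (logP p x s) G C :=
  ⟨I.eq, I.wf, I.kC, I.nid, I.hD, I.hmu, I.mem, fun X h => by
    rcases List.mem_cons.1 h with rfl | h
    · rw [I.hcl]; exact I.kC _ hx
    · exact I.dty X h⟩

theorem logP_invA (hp : p.Ok κ) {x : ℕ × ℕ} {pd : List (ℕ × ℕ)} {X : ℕ} (hk : s.cl.get = G.k)
    (J : InvA p κ s G (x :: pd) X) : InvA p κ (logP p x s) G pd X := by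
  have h2 := hp.pow_le
  have h3 := J.N0
  have e0 := lgr_logP (p := p) (s := s) x X 0
  have u := J.up
  have l := J.lo
  rw [tX_cons] at u l
  by_cases h : X = s.cl.get x.1
  · have e1 : (logP p x s).lg.get X = (s.lg.get X).map (push p x) := by
      rw [h]; exact Arr.get_set_self _ _ _
    rw [if_pos ⟨h, by rw [J.len]; omega⟩] at e0
    rw [if_pos (by rw [← hk, h])] at u l
    refine ⟨by rw [e1, List.length_map, J.len], fun a ha => ?_, h3, ?_, ?_⟩
    · rw [e1] at ha
      obtain ⟨a, ha', rfl⟩ := List.mem_map.1 ha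
      have := J.acc a ha'
      simp only [push, tw_cons]; omega
    · rw [e0]; simp only [push]
      change _ ≤ s.N0.get X + _ + _ ∨ _
      change ∑ v ∈ G.cs X, s.mu.get v ≤ _ ∨ _
      omega
    · rw [e0]; simp only [push]
      change s.N0.get X ≤ ∑ v ∈ G.cs X, s.mu.get v + _ + _
      omega
  · have e1 : (logP p x s).lg.get X = s.lg.get X := by simp only [logP, Arr.get_set, if_neg h]
    rw [if_neg (fun k => h k.1)] at e0
    rw [if_neg (by rw [← hk]; exact fun k => h k.symm), zero_add] at u l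
    exact ⟨e1 ▸ J.len, e1 ▸ J.acc, h3, e0 ▸ u, e0 ▸ l⟩

theorem logP_invX (hp : p.Ok κ) {x : ℕ × ℕ} {pd : List (ℕ × ℕ)} {X : ℕ} (hk : s.cl.get = G.k)
    (J : InvX p κ s G (x :: pd) X) : InvX p κ (logP p x s) G pd X := by
  have h2 := hp.pow_le
  have h3 := J.N0
  have e0 := lgr_logP (p := p) (s := s) x X
  have c := J.crt
  have q := J.qt
  rw [tX_cons] at c q
  refine ⟨logP_invA hp hk J.toInvA, ?_, ?_⟩
  · by_cases h : X = s.cl.get x.1
    · rw [if_pos (by rw [← hk, h])] at c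
      refine c.imp (fun c => ?_) fun ⟨ν, c1, c2⟩ => ⟨ν, c1, fun r hr T hT h1 => ?_⟩
      · rw [e0, if_pos ⟨h, by rw [J.len]; omega⟩]; simp only [push]
        change s.N0.get X / 16 < _
        have : 0 < 2 ^ κ.lg := by positivity
        omega
      · have := c2 r hr T hT h1
        rw [e0, if_pos ⟨h, by rw [J.len]; omega⟩]
        simp only [push, dT_append, dT_cons, List.cons_append] at this ⊢
        change ∑ v ∈ T, s.mu.get v ≤ _
        omega
    · have h' : ¬ G.k x.1 = X := by rw [← hk]; exact fun k => h k.symm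
      rw [if_neg h', zero_add] at c
      simp only [e0, h, false_and, if_false]
      refine c.imp id fun ⟨ν, c1, c2⟩ => ⟨ν, c1, fun r hr T hT h1 => ?_⟩
      have := c2 r hr T hT h1
      rw [List.cons_append, dT_cons, if_neg (fun k => h' (Gr.mem_cs.1 (hT k)).2), zero_add] at this
      exact this
  · by_cases h : X = s.cl.get x.1
    · exact .inl (h ▸ List.mem_cons_self)
    · have h' : ¬ G.k x.1 = X := by rw [← hk]; exact fun k => h k.symm
      rw [if_neg h', zero_add] at q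
      simp only [e0, h, false_and, if_false]
      exact q.imp (List.mem_cons_of_mem _) id

theorem logP_inv (hp : p.Ok κ) {x : ℕ × ℕ} {pd : List (ℕ × ℕ)} (I : InvM p κ s G C (x :: pd)) :
    InvM p κ (logP p x s) G C pd :=
  ⟨logP_inv0 I.toInv0 (I.pv x List.mem_cons_self), fun y h => I.pv y (List.mem_cons_of_mem _ h),
    fun X h => logP_invX hp I.hcl (I.cx X h)⟩

theorem sum_set_le {α : Type} (f : α → ℕ) (a : Arr α) (X : ℕ) (x : α) (C : Finset ℕ) {d : ℕ}
    (h : f x ≤ f (a.get X) + d) :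
    ∑ Y ∈ C, f ((a.set X x).get Y) ≤ ∑ Y ∈ C, f (a.get Y) + d := by
  calc _ ≤ ∑ Y ∈ C, (f (a.get Y) + if Y = X then d else 0) := sum_le_sum fun Y _ => by
        rw [Arr.get_set]; split_ifs with k
        · rw [k]; exact h
        · exact Nat.le_add_right _ _
    _ ≤ _ := by
        rw [sum_add_distrib, sum_ite_eq']; split_ifs <;> omega

/-- the exact effect of an update at a member -/
theorem sum_set_eq {α : Type} (f : α → ℕ) (a : Arr α) {X : ℕ} (x : α) {C : Finset ℕ}
    (h : X ∈ C) : ∑ Y ∈ C, f ((a.set X x).get Y) + f (a.get X) = ∑ Y ∈ C, f (a.get Y) + f x := by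
  rw [← add_sum_erase C _ h, ← add_sum_erase C (fun Y => f (a.get Y)) h, Arr.get_set_self,
    sum_congr rfl fun Y hY => by rw [Arr.get_set_ne _ (ne_of_mem_erase hY)]]
  omega

theorem Ph_logP {x : ℕ × ℕ} (hl : (s.lg.get (s.cl.get x.1)).length = p.L + 1) :
    Ph p κ (logP p x s) C ≤ Ph p κ s C + Wk p κ * 2 ^ (p.L + 1) * (x.2 + 1) + Wq p := by
  have h1 := lw_push (p := p) x (s.lg.get (s.cl.get x.1))
  rw [hl] at h1
  have h2 := sum_set_le lw s.lg (s.cl.get x.1) _ C (le_trans (Nat.le_add_right _ _) h1)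
  have h3 := Nat.mul_le_mul_left (Wk p κ) h2
  simp only [Ph, logP, List.length_cons]
  rw [mul_add, ← mul_assoc] at h3
  rw [mul_add (Wq p)]
  omega

theorem sp_logR (x : ℕ × ℕ) :
    Sp g (logR p x s) fun s' t => s' = logP p x s ∧
      t = 2 * (s.lg.get (s.cl.get x.1)).length + 2 :=
  (sp_mapP _ _).bind fun l t k => ⟨by rw [k.1]; rfl, k.2⟩

/-- the parts of the state that logging does not touch -/
structure Same (s s' : Lv) : Prop where
  gr : ∀ V U, s'.gr V U = s.gr V U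
  D : s'.D = s.D
  mu : s'.mu = s.mu
  mem : s'.mem = s.mem
  N0 : s'.N0 = s.N0
  nid : s'.nid = s.nid
  src : s'.src = s.src
  dst : s'.dst = s.dst
  raw : s'.raw = s.raw
  al : s'.al = s.al
  tm : s'.tm = s.tm
  adj : s'.adj = s.adj
  cl : s'.cl = s.cl

theorem Same.refl (s : Lv) : Same s s :=
  ⟨fun _ _ => rfl, rfl, rfl, rfl, rfl, rfl, rfl, rfl, rfl, rfl, rfl, rfl, rfl⟩

theorem Same.logP {s' : Lv} (h : Same s s') (x : ℕ × ℕ) : Same s (logP p x s') :=
  ⟨h.gr, h.D, h.mu, h.mem, h.N0, h.nid, h.src, h.dst, h.raw, h.al, h.tm, h.adj, h.cl⟩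

theorem same_logsP (l : List (ℕ × ℕ)) {s s' : Lv} (h : Same s s') : Same s (logsP p l s') := by
  induction l generalizing s' with
  | nil => exact h
  | cons x l ih => exact ih (h.logP x)

theorem logsP_inv (hp : p.Ok κ) {l pd : List (ℕ × ℕ)} (I : InvM p κ s G C (l ++ pd)) :
    InvM p κ (logsP p l s) G C pd := by
  induction l generalizing s with
  | nil => exact I
  | cons x l ih => exact ih (logP_inv hp I)

/-- logging a list; only the lengths of the logs are used -/
theorem sp_logsF {α : Type} (f : α → Lv → ℕ × ℕ) (f0 : α → ℕ × ℕ)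
    (hf : ∀ a s', Same s s' → f a s' = f0 a) {l : List α}
    (hl : ∀ a ∈ l, (s.lg.get (s.cl.get (f0 a).1)).length = p.L + 1) :
    Sp g (foldL (fun a s => logR p (f a s) s) l s) fun s' t => s' = logsP p (l.map f0) s ∧
      t + Ph p κ s' C ≤ Ph p κ s C + Wu p κ * tw (l.map f0) + 1 := by
  refine (sp_foldL (fun l' s' t => logsP p (l'.map f0) s' = logsP p (l.map f0) s ∧ Same s s' ∧
      (∀ a ∈ l', (s'.lg.get (s'.cl.get (f0 a).1)).length = p.L + 1) ∧
      t + Ph p κ s' C + Wu p κ * tw (l'.map f0) ≤ Ph p κ s C + Wu p κ * tw (l.map f0))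
    (fun a l' s' t k => (sp_logR (f a s')).mono ?_) (t := 0)
    ⟨rfl, Same.refl s, hl, by omega⟩).mono ?_
  · rintro _ _ ⟨rfl, rfl⟩
    rw [hf a s' k.2.1]
    have h1 := k.2.2.1 a List.mem_cons_self
    refine ⟨k.1, k.2.1.logP _, fun y hy => ?_, ?_⟩
    · have := k.2.2.1 y (List.mem_cons_of_mem _ hy)
      simp only [logP, Arr.get_set]
      split_ifs with e
      · rw [List.length_map, h1]
      · exact this
    · have h2 := Ph_logP (κ := κ) (C := C) h1
      have h3 := k.2.2.2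
      rw [List.map_cons, tw_cons, mul_add (Wu p κ)] at h3
      have h4 : Wk p κ * 2 ^ (p.L + 1) * ((f0 a).2 + 1) + 2 * Wq p ≤ Wu p κ * ((f0 a).2 + 1) := by
        unfold Wu; nlinarith
      have h5 : Wq p = 4 * p.L + 20 := rfl
      rw [h1]; omega
  · rintro s' _ ⟨u, rfl, k⟩
    exact ⟨k.1, by have := k.2.2.2; simp only [List.map_nil, tw_nil] at this; omega⟩

theorem sp_logs {l : List (ℕ × ℕ)} (hl : ∀ x ∈ l, (s.lg.get (s.cl.get x.1)).length = p.L + 1) :
    Sp g (foldL (logR p) l s) fun s' t => s' = logsP p l s ∧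
      t + Ph p κ s' C ≤ Ph p κ s C + Wu p κ * tw l + 1 := by
  have := sp_logsF (p := p) (κ := κ) (C := C) (g := g) (fun x _ => x) id (fun _ _ _ => rfl) hl
  rwa [List.map_id] at this

theorem InvM.len {pd : List (ℕ × ℕ)} (I : InvM p κ s G C pd) {v : ℕ} (h : v ∈ G.V) :
    (s.lg.get (s.cl.get v)).length = p.L + 1 := by
  rw [I.hcl]; exact (I.cx _ (I.kC v h)).len

theorem sp_finR {r : Res} (o : List Op)
    (hl : ∀ x ∈ r.2.1, (r.1.lg.get (r.1.cl.get x.1)).length = p.L + 1) :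
    Sp g (finR p r o) fun so t => so = finP p r o ∧
      t + Ph p κ so.1 C ≤ Ph p κ r.1 C + Wu p κ * tw r.2.1 + r.2.2.length + 2 :=
  (sp_logs (κ := κ) (C := C) hl).bind fun s' t k => (sp_revAppL _ _).bind fun o' t' k' =>
    ⟨by rw [k.1, k'.1]; rfl, by have := k.2; rw [k'.2]; simp only; omega⟩

/-- `sp_finR` with the invariant -/
theorem sp_finR' (hp : p.Ok κ) {r : Res} (o : List Op) {pd : List (ℕ × ℕ)}
    (I : InvM p κ r.1 G C (r.2.1 ++ pd)) :
    Sp g (finR p r o) fun so t => so.2 = r.2.2.reverse ++ o ∧ InvM p κ so.1 G C pd ∧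
      Same r.1 so.1 ∧ t + Ph p κ so.1 C ≤ Ph p κ r.1 C + Wu p κ * tw r.2.1 + r.2.2.length + 2 :=
  (sp_finR (κ := κ) (C := C) o fun x hx => I.len (I.pv x (List.mem_append_left _ hx))).mono
    fun so t k => by
      obtain ⟨rfl, k⟩ := k
      exact ⟨rfl, logsP_inv hp I, same_logsP _ (Same.refl _), k⟩

theorem tw_mu (f : ℕ → ℕ) (S : List ℕ) :
    tw (S.map fun v => (v, f v)) = (S.map f).sum + S.length := by
  induction S with
  | nil => rfl
  | cons v S ih => simp only [List.map_cons, tw_cons, ih, List.sum_cons, List.length_cons]; omega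

theorem sp_logMu {S : List ℕ} (hl : ∀ v ∈ S, (s.lg.get (s.cl.get v)).length = p.L + 1) :
    Sp g (logMu p S s) fun s' t => s' = logsP p (S.map fun v => (v, s.mu.get v)) s ∧
      t + Ph p κ s' C ≤ Ph p κ s C + Wu p κ * ((S.map s.mu.get).sum + S.length) + 1 := by
  rw [← tw_mu]
  exact sp_logsF (fun v s => (v, s.mu.get v)) (fun v => (v, s.mu.get v))
    (fun _ _ h => by rw [h.mu]) hl

variable {un' : ℕ} {H : Gr}

theorem Done.refl (I : Inv p κ s G C) (R : G.Rel C H) : Done p κ un' s G C H 0 0 s G C [] :=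
  ⟨I, trivial, R, le_rfl, fun _ h => .inl h, by simp, by simp [Ws], by simp⟩

theorem Ws_append (a b c : ℕ) (l m : List Op) : Ws a b c (l ++ m) = Ws a b c l + Ws a b c m := by
  simp [Ws]

theorem Done.trans {w t w' t' : ℕ} {s1 s2 : Lv} {G1 G2 : Gr} {C1 C2 : Finset ℕ} {n n' : List Op}
    (h : Done p κ un' s G C H w t s1 G1 C1 n)
    (h' : Done p κ un' s1 G1 C1 (H.apps n) w' t' s2 G2 C2 n') :
    Done p κ un' s G C H (w + w') (t + t') s2 G2 C2 (n ++ n') := by
  refine ⟨h'.inv, (Gr.oks_append _ _ _).2 ⟨h.oks, h'.oks⟩, Gr.apps_append _ _ _ ▸ h'.rel,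
    h.nid.trans h'.nid, fun X hX => ?_, ?_, ?_, ?_⟩
  · rcases h'.new X hX with k | k
    · exact h.new X k
    · exact .inr (h.nid.trans k)
  · have := h.th; have := h'.th; rw [mul_add]; omega
  · have := h.out; have := h'.out; rw [mul_add, Ws_append]; omega
  · have := h.psi; have := h'.psi; rw [mul_add]; omega

theorem Done.cost {w t t' : ℕ} {s1 : Lv} {G1 : Gr} {C1 : Finset ℕ} {n : List Op}
    (h : Done p κ un' s G C H w t s1 G1 C1 n) (ht : t' ≤ t) :
    Done p κ un' s G C H w t' s1 G1 C1 n :=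
  ⟨h.inv, h.oks, h.rel, h.nid, h.new, h.th, h.out, by have := h.psi; omega⟩

theorem tot_le (hp : p.Ok κ) (h : Th κ s G ≤ κ.lg * 2 ^ κ.lg) : tot s G ≤ 2 ^ κ.lg :=
  Nat.le_of_mul_le_mul_left (le_trans (Nat.le_add_right _ _) h) hp.lg

end Crest.Agent.N325.Hi
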