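import Crest.Agent.N325.St.Qual

/-!
# Row 325, module M4: quality of a contracted hierarchy (helper32)

One level replaces the graph `f` by stars `s` (node — cluster) and the contracted graph `h` of the
edges between different clusters.  The stars cost `q₁`, the contracted graph costs only `q₂`, and
only `q₂` compounds over the levels.
-/

set_option autoImplicit false

namespace Crest.Agent.N325.Hi

open Finset St

/-- one level: `f` is dominated by `s + h`; every cut extends to the new nodes `N` with the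
stars below `q₁ f` and the contracted graph below `q₂ f` -/
structure Lev (q₁ q₂ : ℕ) (N : Set ℕ) (f s h : Set ℕ → ℕ) : Prop where
  dom : ∀ S, f S ≤ s S + h S
  qual : ∀ S, ∃ S' : Set ℕ, (∀ v, v ∉ N → (v ∈ S' ↔ v ∈ S)) ∧ s S' ≤ q₁ * f S ∧ h S' ≤ q₂ * f S

theorem Lev.mono {q₁ q₂ q₁' q₂' : ℕ} {N N' : Set ℕ} {f s h : Set ℕ → ℕ} (H : Lev q₁ q₂ N f s h)
    (h1 : q₁ ≤ q₁') (h2 : q₂ ≤ q₂') (hN : N ⊆ N') : Lev q₁' q₂' N' f s h :=
  ⟨H.dom, fun S => by
    obtain ⟨S', e, k1, k2⟩ := H.qual S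
    exact ⟨S', fun v hv => e v fun h' => hv (hN h'), k1.trans (Nat.mul_le_mul_right _ h1),
      k2.trans (Nat.mul_le_mul_right _ h2)⟩⟩

theorem Lev.congr {q₁ q₂ : ℕ} {N : Set ℕ} {f s h f' s' h' : Set ℕ → ℕ} (H : Lev q₁ q₂ N f s h)
    (hf : ∀ S, f' S = f S) (hs : ∀ S, s' S = s S) (hh : ∀ S, h' S = h S) :
    Lev q₁ q₂ N f' s' h' := by
  rw [show f' = f from funext hf, show s' = s from funext hs, show h' = h from funext hh]; exact H

/-- a level on top of which the contracted graph is sparsified -/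
theorem Lev.spar {q₁ q₂ Q : ℕ} {N N' : Set ℕ} {f s h g : Set ℕ → ℕ} (H : Lev q₁ q₂ N f s h)
    (G : Spar Q N' h g) (hs : Blind s N') :
    Spar (q₁ + q₂ * Q) (N ∪ N') f (fun S => s S + g S) :=
  ⟨fun S => (H.dom S).trans (Nat.add_le_add_left (G.dom S) _), fun S => by
    obtain ⟨S1, e1, k1, k2⟩ := H.qual S
    obtain ⟨S2, e2, k3⟩ := G.qual S1
    refine ⟨S2, fun v hv => ?_, ?_⟩
    · simp only [Set.mem_union, not_or] at hv
      rw [e2 v hv.2, e1 v hv.1]
    · have k4 := hs S1 S2 e2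
      have k5 : Q * h S1 ≤ Q * (q₂ * f S) := Nat.mul_le_mul_left _ k2
      calc s S2 + g S2 ≤ q₁ * f S + Q * (q₂ * f S) := by omega
        _ = (q₁ + q₂ * Q) * f S := by ring⟩

/-- **`t` levels.**  `h i` is the graph of level `i`, `s i` its stars, `N i` its clusters. -/
theorem spar_levels {q₁ q₂ : ℕ} (hq : 1 ≤ q₂) {N : ℕ → Set ℕ} {h s : ℕ → Set ℕ → ℕ} (t k : ℕ)
    (H : ∀ i, k ≤ i → i < k + t → Lev q₁ q₂ (N i) (h i) (s i) (h (i + 1)))
    (hb : ∀ i j, k ≤ i → i < j → j < k + t → Blind (s i) (N j)) :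
    Spar ((q₁ * t + 1) * q₂ ^ t) {v | ∃ i, k ≤ i ∧ i < k + t ∧ v ∈ N i} (h k)
      (fun S => ∑ i ∈ range t, s (k + i) S + h (k + t) S) := by
  induction t generalizing k with
  | zero => simpa using (Spar.refl (h k)).mono le_rfl (Set.empty_subset _)
  | succ t ih =>
    have G := ih (k + 1) (fun i h1 h2 => H i (by omega) (by omega))
      fun i j h1 h2 h3 => hb i j (by omega) h2 (by omega)
    have hbl : ∀ n, ∀ S S' : Set ℕ, (∀ v, v ∉ {v | ∃ i, k + 1 ≤ i ∧ i < k + 1 + n ∧ v ∈ N i} →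
        (v ∈ S' ↔ v ∈ S)) → n ≤ t → s k S' = s k S := by
      intro n
      induction n with
      | zero =>
        intro S S' e _
        rw [show S' = S from Set.ext fun v => e v fun ⟨i, h1, h2, _⟩ => by omega]
      | succ n ihn =>
        intro S S' e hn
        classical
        set S1 : Set ℕ := {v | if v ∈ N (k + 1 + n) then v ∈ S' else v ∈ S} with hS1
        have e1 : s k S1 = s k S := hb k (k + 1 + n) le_rfl (by omega) (by omega) S S1
          fun v hv => by simp [hS1, hv]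
        rw [← e1]
        refine ihn S1 S' (fun v hv => ?_) (by omega)
        by_cases h1 : v ∈ N (k + 1 + n)
        · simp [hS1, h1]
        · simp only [hS1, Set.mem_ofPred_eq, h1, if_false]
          refine e v fun ⟨i, i1, i2, i3⟩ => ?_
          rcases Nat.lt_or_ge i (k + 1 + n) with h2 | h2
          · exact hv ⟨i, i1, h2, i3⟩
          · exact h1 (show i = k + 1 + n by omega ▸ i3)
    have K := (H k le_rfl (by omega)).spar G fun S S' e => hbl t S S' e le_rfl
    refine (K.mono ?_ ?_).congr (fun _ => rfl) fun S => ?_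
    · have : q₁ ≤ q₁ * q₂ ^ (t + 1) := Nat.le_mul_of_pos_right _ (Nat.pow_pos hq)
      calc q₁ + q₂ * ((q₁ * t + 1) * q₂ ^ t) ≤ q₁ * q₂ ^ (t + 1) + q₂ * ((q₁ * t + 1) * q₂ ^ t) :=
            Nat.add_le_add_right this _
        _ = (q₁ * (t + 1) + 1) * q₂ ^ (t + 1) := by ring
    · rintro v (hv | ⟨i, h1, h2, h3⟩)
      · exact ⟨k, le_rfl, by omega, hv⟩
      · exact ⟨i, by omega, by omega, h3⟩
    · rw [sum_range_succ', show k + (t + 1) = k + 1 + t by omega]
      have : ∑ i ∈ range t, s (k + (i + 1)) S = ∑ i ∈ range t, s (k + 1 + i) S :=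
        sum_congr rfl fun i _ => by rw [show k + (i + 1) = k + 1 + i by omega]
      rw [this, add_zero]; omega

section one

open Classical

variable (V E : Finset ℕ) (a b u cl : ℕ → ℕ)

/-- weight of the edges at `v` (a loop counts twice) -/
def wdeg (v : ℕ) : ℕ :=
  ∑ e ∈ E, ((if a e = v then u e else 0) + if b e = v then u e else 0)

/-- the edges between different clusters -/
def inter : Finset ℕ := E.filter fun e => cl (a e) ≠ cl (b e)

/-- the edges inside the cluster `c` -/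
def intra (c : ℕ) : Finset ℕ := E.filter fun e => cl (a e) = c ∧ cl (b e) = c

variable {V E a b u cl}

lemma sum_wdeg (p : ℕ → Prop) [DecidablePred p] (hE : ∀ e ∈ E, a e ∈ V ∧ b e ∈ V) :
    ∑ v ∈ V with p v, wdeg E a b u v
      = ∑ e ∈ E, ((if p (a e) then u e else 0) + if p (b e) then u e else 0) := by
  unfold wdeg
  rw [sum_comm]
  refine sum_congr rfl fun e he => ?_
  rw [sum_add_distrib, sum_ite_eq, sum_ite_eq]
  simp [(hE e he).1, (hE e he).2]

lemma sum_intra_le (I : Finset ℕ) (S : Set ℕ) :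
    ∑ c ∈ I, cutF (intra E a b cl c) a b u S + cutF (inter E a b cl) a b u S
      ≤ cutF E a b u S := by
  unfold cutF intra inter
  simp only [sum_filter]
  rw [sum_comm, ← sum_add_distrib]
  refine sum_le_sum fun e _ => ?_
  by_cases h : cl (a e) = cl (b e)
  · simp only [← h, and_self, ne_eq, not_true, if_false, add_zero, sum_ite_eq]
    split_ifs <;> simp
  · rw [sum_eq_zero fun c _ => if_neg fun k => h (k.1.trans k.2.symm)]
    simp [h]

/-- **One level.**  Nodes `V`, edges `E` with ends `a`, `b` and capacity `u`, clusters `cl`,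
star capacities `cap`.  In every cluster one side `T` of every cut pays `cap T ≤ q₁ cut` and
(boundary weight at `T`) `≤ q₃ cut`, the cut taken inside the cluster. -/
theorem lev_one {cap : ℕ → ℕ} {q₁ q₃ : ℕ} {N : Set ℕ} (hE : ∀ e ∈ E, a e ∈ V ∧ b e ∈ V)
    (hV : ∀ v ∈ V, v ∉ N) (hN : ∀ v ∈ V, cl v ∈ N) (hcap : ∀ v ∈ V, wdeg E a b u v ≤ cap v)
    (hc : ∀ c (S : Set ℕ), ∃ p : Prop,
      ∑ v ∈ V with cl v = c ∧ ¬ (v ∈ S ↔ p), cap v ≤ q₁ * cutF (intra E a b cl c) a b u S ∧
      ∑ v ∈ V with cl v = c ∧ ¬ (v ∈ S ↔ p), wdeg (inter E a b cl) a b u v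
        ≤ q₃ * cutF (intra E a b cl c) a b u S) :
    Lev q₁ (q₃ + 1) N (cutF E a b u) (cutF V id cl cap)
      (cutF (inter E a b cl) (fun e => cl (a e)) (fun e => cl (b e)) u) := by
  constructor
  · intro S
    have h1 : ∑ v ∈ V with ¬ (v ∈ S ↔ cl v ∈ S), wdeg E a b u v ≤ cutF V id cl cap S := by
      rw [cutF, sum_filter]
      refine sum_le_sum fun v hv => ?_
      by_cases h : v ∈ S ↔ cl v ∈ S
      · simp [h]
      · simpa [h] using hcap v hv
    refine le_trans ?_ (Nat.add_le_add_right h1 _)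
    rw [sum_wdeg _ hE, cutF, cutF, inter, sum_filter, ← sum_add_distrib]
    refine sum_le_sum fun e _ => ?_
    by_cases h : cl (a e) = cl (b e)
    · by_cases k1 : a e ∈ S <;> by_cases k2 : b e ∈ S <;> by_cases k3 : cl (b e) ∈ S <;>
        simp [h, k1, k2, k3]
    · by_cases k1 : a e ∈ S <;> by_cases k2 : b e ∈ S <;> by_cases k3 : cl (b e) ∈ S <;>
        by_cases k4 : cl (a e) ∈ S <;> simp [h, k1, k2, k3, k4]
  · intro S
    choose p hp1 hp2 using fun c => hc c S
    set S' : Set ℕ := {v | if v ∈ N then p v else v ∈ S} with hS'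
    have e1 : ∀ v ∈ V, (v ∈ S' ↔ v ∈ S) := fun v hv => by simp [hS', hV v hv]
    have e2 : ∀ v ∈ V, (cl v ∈ S' ↔ p (cl v)) := fun v hv => by simp [hS', hN v hv]
    have fib : ∀ w : ℕ → ℕ, ∑ v ∈ V with ¬ (v ∈ S ↔ p (cl v)), w v
        = ∑ c ∈ V.image cl, ∑ v ∈ V with cl v = c ∧ ¬ (v ∈ S ↔ p c), w v := fun w => by
      rw [← sum_fiberwise_of_maps_to (t := V.image cl) (g := cl)
        fun v hv => mem_image_of_mem _ (mem_filter.1 hv).1]
      refine sum_congr rfl fun c _ => sum_congr ?_ fun _ _ => rfl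
      rw [filter_filter]
      exact filter_congr fun v _ => ⟨fun h => ⟨h.2, h.2 ▸ h.1⟩, fun h => ⟨h.1 ▸ h.2, h.1⟩⟩
    have tot := sum_intra_le (E := E) (a := a) (b := b) (u := u) (cl := cl) (V.image cl) S
    refine ⟨S', fun v hv => by simp [hS', hv], ?_, ?_⟩
    · calc cutF V id cl cap S' = ∑ v ∈ V with ¬ (v ∈ S ↔ p (cl v)), cap v := by
            rw [cutF, sum_filter]
            refine sum_congr rfl fun v hv => ?_
            simp only [id, e1 v hv, e2 v hv]
            by_cases h : v ∈ S ↔ p (cl v) <;> simp [h]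
        _ ≤ ∑ c ∈ V.image cl, q₁ * cutF (intra E a b cl c) a b u S := by
            rw [fib]; exact sum_le_sum fun c _ => hp1 c
        _ ≤ _ := by rw [← mul_sum]; exact Nat.mul_le_mul_left _ (by omega)
    · have hE' : ∀ e ∈ inter E a b cl, a e ∈ V ∧ b e ∈ V := fun e he => hE e (mem_filter.1 he).1
      have k1 : cutF (inter E a b cl) (fun e => cl (a e)) (fun e => cl (b e)) u S'
          ≤ cutF (inter E a b cl) a b u S
            + ∑ v ∈ V with ¬ (v ∈ S ↔ p (cl v)), wdeg (inter E a b cl) a b u v := by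
        rw [sum_wdeg _ hE', cutF, cutF, ← sum_add_distrib]
        refine sum_le_sum fun e he => ?_
        simp only [e2 _ (hE' e he).1, e2 _ (hE' e he).2]
        by_cases k1 : a e ∈ S <;> by_cases k2 : b e ∈ S <;> by_cases k3 : p (cl (b e)) <;>
          by_cases k4 : p (cl (a e)) <;> simp [k1, k2, k3, k4]
      have k2 : ∑ v ∈ V with ¬ (v ∈ S ↔ p (cl v)), wdeg (inter E a b cl) a b u v
          ≤ q₃ * ∑ c ∈ V.image cl, cutF (intra E a b cl c) a b u S := by
        rw [fib, mul_sum]; exact sum_le_sum fun c _ => hp2 c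
      have k3 : q₃ * ∑ c ∈ V.image cl, cutF (intra E a b cl c) a b u S ≤ q₃ * cutF E a b u S :=
        Nat.mul_le_mul_left _ (by omega)
      rw [add_mul, one_mul]; omega

end one

end Crest.Agent.N325.Hi
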