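import Crest.Agent.N325.Hi.Inv
import Crest.Agent.N325.Lf.Main

/-! The trimming flow of the hierarchy = one LocalFlow call (helper30). -/

set_option autoImplicit false
open Finset

namespace Crest.Agent.N325.Hi

variable {g : Gl}

/-- one step of the duplicate removal -/
def ddS (a : Arr ℕ) (v : ℕ) (t : Arr Bool × List ℕ) : Arr Bool × List ℕ :=
  if t.1.get v = true ∨ a.get v = 0 then t else (t.1.set v true, v :: t.2)

theorem foldl_ddS (a : Arr ℕ) (l : List ℕ) (t : Arr Bool × List ℕ) (h1 : t.2.Nodup)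
    (h2 : ∀ v, t.1.get v = true ↔ v ∈ t.2) :
    (l.foldl (fun s v => ddS a v s) t).2.Nodup ∧
      ∀ v, v ∈ (l.foldl (fun s v => ddS a v s) t).2 ↔ v ∈ t.2 ∨ (v ∈ l ∧ a.get v ≠ 0) := by
  induction l generalizing t with
  | nil => simp [h1]
  | cons x l ih =>
    rw [List.foldl_cons]
    by_cases h : t.1.get x = true ∨ a.get x = 0
    · rw [show ddS a x t = t from if_pos h]
      refine ⟨(ih t h1 h2).1, fun v => ((ih t h1 h2).2 v).trans ?_⟩
      rw [List.mem_cons]
      refine ⟨by tauto, ?_⟩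
      rintro (k | ⟨rfl | k, k'⟩)
      · exact Or.inl k
      · exact Or.inl ((h2 v).1 (h.resolve_right k'))
      · exact Or.inr ⟨k, k'⟩
    · rw [show ddS a x t = (t.1.set x true, x :: t.2) from if_neg h]
      push Not at h
      have := ih (t.1.set x true, x :: t.2)
        (List.nodup_cons.2 ⟨fun k => h.1 ((h2 x).2 k), h1⟩) fun v => by
          by_cases e : v = x
          · subst e; simp
          · simp [Arr.get_set_ne _ e, h2, e]
      refine ⟨this.1, fun v => (this.2 v).trans ?_⟩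
      simp only [List.mem_cons]
      refine ⟨?_, by tauto⟩
      rintro ((rfl | k) | k)
      · exact Or.inr ⟨Or.inl rfl, h.2⟩
      · exact Or.inl k
      · exact Or.inr ⟨Or.inr k.1, k.2⟩

/-- the units of an alive edge inside the cluster `X` -/
def trW (s : Lv) (un X e : ℕ) : ℕ :=
  if s.al.get e = true ∧ s.cl.get (s.src.get e) = X ∧ s.cl.get (s.dst.get e) = X then
    s.raw.get e / un else 0

/-- the network of the cluster `X` -/
def trN (s : Lv) (un X K : ℕ) (a b : ℕ → ℕ) (h : ℕ) : Lf.Net :=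
  ⟨s.adj.get, s.src.get, s.dst.get, fun e => K * trW s un X e, a, b, h⟩

/-- the entry of a level edge -/
def trE (K B : ℕ) (x : ℕ × ℕ) : Option (ℕ × ℕ) :=
  if x.2 = 0 then none else some (x.1, min (2 * K * x.2) B)

/-- **the trimming flow** -/
def trimLf (p : Par) (h D M fu : ℕ) : Lf := fun x =>
  foldP (ddS x.2.2.2.1) x.2.2.2.2 (Arr.cst false, []) >>= fun t =>
    Lf.lf (trN x.1 p.un x.2.1 x.2.2.1 x.2.2.2.1.get x.1.mu.get h) (trW x.1 p.un x.2.1)
      x.1.mu.get D M t.2 fu >>= fun r =>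
      filterMapP (trE x.2.2.1 p.B) r.2.2.2 >>= fun l => pure (r.2.2.1, l)

/-- the alive edges inside `X` -/
def Gr.eIn (G : Gr) (X : ℕ) : Finset ℕ := G.E.filter fun e => G.k (G.src e) = X ∧ G.k (G.dst e) = X

section
variable {p : Par} {s : Lv} {V U C : Finset ℕ} {X K h : ℕ} {a b : ℕ → ℕ}

theorem trW_eq {e : ℕ} (he : e ∈ (s.gr V U).eIn X) : trW s p.un X e = (s.gr V U).uh p.un e :=
  if_pos ⟨(mem_filter.1 (mem_filter.1 he).1).2, (mem_filter.1 he).2⟩

theorem trN_WF (W : (s.gr V U).WF) :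
    (trN s p.un X K a b h).WF ((s.gr V U).cs X) ((s.gr V U).eIn X) where
  src_mem e he := mem_filter.2 ⟨(W.ends e (mem_filter.1 he).1).1, (mem_filter.1 he).2.1⟩
  dst_mem e he := mem_filter.2 ⟨(W.ends e (mem_filter.1 he).1).2.1, (mem_filter.1 he).2.2⟩
  live v hv e he hc := by
    have h1 : 0 < trW s p.un X e := Nat.pos_of_mul_pos_left hc
    unfold trW at h1
    split_ifs at h1 with h2
    · exact mem_filter.2 ⟨mem_filter.2 ⟨W.used v (mem_filter.1 hv).1 e he, h2.1⟩, h2.2⟩
    · omega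
  full e he _ := (W.ends e (mem_filter.1 he).1).2.2.2
  nodup v hv := W.nd v (mem_filter.1 hv).1

theorem trN_crs {A B : Finset ℕ} (hA : A ⊆ (s.gr V U).cs X) (hB : B ⊆ (s.gr V U).cs X) :
    (trN s p.un X K a b h).crs ((s.gr V U).eIn X) (trW s p.un X) A B = (s.gr V U).xc p.un A B := by
  rw [Lf.crs_congr fun e he => trW_eq (p := p) he]
  unfold Lf.Net.crs Gr.xc Gr.eIn
  rw [sum_filter]
  refine sum_congr rfl fun e _ => ?_
  change (if _ then (if (s.src.get e ∈ A ∧ s.dst.get e ∈ B) ∨ (s.src.get e ∈ B ∧ s.dst.get e ∈ A)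
    then _ else 0) else 0) = if (s.src.get e ∈ A ∧ s.dst.get e ∈ B) ∨
      (s.src.get e ∈ B ∧ s.dst.get e ∈ A) then _ else 0
  split_ifs with h1 h2 h2
  · rfl
  · rfl
  · refine absurd ?_ h1
    rcases h2 with k | k
    · exact ⟨(mem_filter.1 (hA k.1)).2, (mem_filter.1 (hB k.2)).2⟩
    · exact ⟨(mem_filter.1 (hB k.1)).2, (mem_filter.1 (hA k.2)).2⟩
  · rfl

theorem sum_map_add (l : List ℕ) (u : ℕ → ℕ) (c : ℕ) :
    (l.map fun e => u e + c).sum = (l.map u).sum + c * l.length := by
  induction l with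
  | nil => rfl
  | cons x l ih => simp only [List.map_cons, List.sum_cons, List.length_cons, ih]; ring

/-- degree and length of the adjacency list are paid by the measure -/
theorem trN_deg (I : Inv0 p s (s.gr V U) C) (hbe : 0 < p.be) {v : ℕ} (hv : v ∈ (s.gr V U).cs X) :
    (trN s p.un X K a b h).wdeg ((s.gr V U).eIn X) (trW s p.un X) v + 1 + (s.adj.get v).length
      ≤ s.mu.get v := by
  have hV := (mem_filter.1 hv).1
  have h1 := I.hD v hV
  have h2 := I.hmu v hV
  rw [sum_map_add, ← List.sum_toFinset _ (I.wf.nd v hV)] at h1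
  have h3 : (trN s p.un X K a b h).wdeg ((s.gr V U).eIn X) (trW s p.un X) v ≤
      ((s.gr V U).adj v).toFinset.sum ((s.gr V U).uh p.un) := by
    unfold Lf.Net.wdeg
    rw [← sum_filter]
    refine (sum_congr rfl fun e he => trW_eq (p := p) (mem_filter.1 he).1).trans_le
      (sum_le_sum_of_subset fun e he => List.mem_toFinset.2 ?_)
    have k := (I.wf.ends e (mem_filter.1 (mem_filter.1 he).1).1).2.2.2
    rcases (mem_filter.1 he).2 with e1 | e1
    · exact e1 ▸ k.1
    · exact e1 ▸ k.2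
  have h4 : ((s.gr V U).adj v).length ≤ p.be * ((s.gr V U).adj v).length :=
    Nat.le_mul_of_pos_left _ hbe
  change _ + 1 + ((s.gr V U).adj v).length ≤ _
  omega

end

theorem trE_sums {K B : ℕ} (hK : 0 < K) (l : List (ℕ × ℕ)) (h : 2 * K * (l.map Prod.snd).sum ≤ B)
    (T : Finset ℕ) : dT (l.filterMap (trE K B)) T = 2 * K * Lf.lsum l T ∧
      2 * K * (l.map Prod.snd).sum ≤ tw (l.filterMap (trE K B)) ∧
      tw (l.filterMap (trE K B)) ≤ 3 * K * (l.map Prod.snd).sum := by
  induction l with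
  | nil => simp [dT, tw, Lf.lsum]
  | cons x l ih =>
    rw [List.map_cons, List.sum_cons, mul_add] at h
    obtain ⟨a1, a2, a3⟩ := ih (by omega)
    rw [List.map_cons, List.sum_cons, mul_add, mul_add]
    by_cases h0 : x.2 = 0
    · rw [List.filterMap_cons_none (show trE K B x = none from if_pos h0), h0]
      refine ⟨a1.trans ?_, by omega, by omega⟩
      simp only [Lf.lsum, List.filter_cons]
      split_ifs <;> simp [h0]
    · have e : trE K B x = some (x.1, 2 * K * x.2) := by
        rw [trE, if_neg h0, min_eq_left (by omega)]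
      rw [List.filterMap_cons_some e]
      have a4 : 1 ≤ K * x.2 := Nat.mul_pos hK (Nat.pos_of_ne_zero h0)
      simp only [dT, tw, Lf.lsum, List.map_cons, List.sum_cons, List.filter_cons,
        decide_eq_true_eq] at a1 a2 a3 ⊢
      refine ⟨?_, by omega, by rw [mul_assoc, mul_assoc 3 K x.2]; omega⟩
      split_ifs <;> simp [a1, mul_add]

/-- **the specification of the trimming flow** -/
theorem trimSpec {p : Par} {κ : Cst} (hp : p.Ok κ) (hX : p.B ≤ g.X) {h fu : ℕ}
    (hh : 2 * κ.Dq * (κ.lg + 1) + 2 ≤ h) (hfu : (h * (16 * p.cL + 3) + 1) * 2 ^ κ.lg < fu)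
    (hCl : 12 * (h + 2) * (16 * p.cL + 4) ≤ κ.Cl) :
    TrimSpec g p κ (trimLf p h κ.Dq (2 ^ κ.lg) fu) := by
  intro s G C X K a W0 I ht hK hK' hW ha hs
  obtain ⟨V, U, rfl⟩ : ∃ V U, G = s.gr V U := ⟨_, _, I.eq.symm⟩
  have hB := hp.hB
  set M := 2 ^ κ.lg with hM
  set A := ∑ v ∈ (s.gr V U).cs X, a.get v with hA
  have b1 : 2 * K * M ≤ p.B :=
    (Nat.mul_le_mul_right M (by omega)).trans hB
  have b2 : K * M ≤ 2 * K * M := Nat.mul_le_mul_right M (by omega)
  have b3 : M ≤ K * M := Nat.le_mul_of_pos_left M hK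
  unfold trimLf
  refine (sp_foldP _ _ _).bind ?_
  rintro _ _ ⟨rfl, rfl⟩
  obtain ⟨d1, d2⟩ := foldl_ddS a W0 (Arr.cst false, []) List.nodup_nil (by simp)
  simp only [List.not_mem_nil, false_or] at d2
  dsimp only
  generalize (W0.foldl (fun s v => ddS a v s) (Arr.cst false, [])).2 = W at d1 d2 ⊢
  have hWA : W.length ≤ A := by
    rw [← List.toFinset_card_of_nodup d1, card_eq_sum_ones]
    exact (sum_le_sum fun v hv => Nat.pos_of_ne_zero ((d2 v).1 (List.mem_toFinset.1 hv)).2).trans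
      (sum_le_sum_of_subset fun v hv => hW v ((d2 v).1 (List.mem_toFinset.1 hv)).1)
  have hmu : ∑ v ∈ (s.gr V U).cs X, s.mu.get v ≤ M :=
    (sum_le_sum_of_subset (filter_subset _ _)).trans ht
  have Cl : Lf.Call (trN s p.un X K a.get s.mu.get h) ((s.gr V U).cs X) ((s.gr V U).eIn X)
      (trW s p.un X) s.mu.get K κ.Dq M (κ.lg + 1) ((2 * K + 1 + 2) * A) g.X W :=
    { wf := trN_WF I.wf
      start := ⟨fun v hv => hW v ((d2 v).1 hv).1, fun v _ k => by
        have k' : a.get v ≠ 0 := by change s.mu.get v < a.get v at k; omega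
        exact (d2 v).2 ⟨by_contra fun n => k' (ha v n), k'⟩⟩
      capK := fun _ _ => rfl
      dead := fun e he => (Nat.mul_eq_zero.1 (he : K * trW s p.un X e = 0)).resolve_left hK.ne'
      deg := fun v hv => by
        have := trN_deg (K := K) (a := a.get) (b := s.mu.get) (h := h) I hp.be hv; omega
      muM := hmu
      Mk := by rw [pow_succ]; have : 0 < M := by positivity
               omega
      hh := hh
      bd := Lf.bd_local fun v hv => by
        have k1 := trN_deg (K := K) (a := a.get) (b := s.mu.get) (h := h) I hp.be hv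
        have k2 : (trN s p.un X K a.get s.mu.get h).cvol ((s.gr V U).eIn X) v =
            K * (trN s p.un X K a.get s.mu.get h).wdeg ((s.gr V U).eIn X) (trW s p.un X) v := by
          unfold Lf.Net.cvol Lf.Net.wdeg
          rw [mul_sum]
          refine sum_congr rfl fun e _ => ?_
          split_ifs
          · rfl
          · rfl
        have k3 := Nat.mul_le_mul_left K (show (trN s p.un X K a.get s.mu.get h).wdeg
          ((s.gr V U).eIn X) (trW s p.un X) v ≤ s.mu.get v by omega)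
        change 1 + (s.adj.get v).length + _ ≤ (2 * K + 1) * s.mu.get v
        rw [k2, add_mul, mul_assoc]; omega
      KM := by omega
      MX := by omega
      aX := by change A ≤ _; omega }
  have c1 : (2 * K + 1 + 2) * A ≤ (16 * p.cL + 3) * A := Nat.mul_le_mul_right A (by omega)
  refine (Lf.sp_lf Cl ?_).bind ?_
  · have c2 : h * ((2 * K + 1 + 2) * A) ≤ h * ((16 * p.cL + 3) * M) :=
      Nat.mul_le_mul_left h (c1.trans (Nat.mul_le_mul_left _ hs))
    rw [add_mul, mul_assoc] at hfu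
    change h * _ + _ < _
    omega
  rintro ⟨f, x, P, l⟩ t ⟨R, hc⟩
  dsimp only at R ⊢
  refine (sp_filterMapP _ _).bind ?_
  rintro _ u ⟨rfl, hu⟩
  have m1 : ∑ v ∈ P.toFinset, s.mu.get v ≤ M := (sum_le_sum_of_subset R.sub).trans hmu
  have z1 := R.sel.trans (min_le_left _ _)
  have hD : 0 < κ.Dq := lt_of_lt_of_le (Nat.mul_pos (by omega) hp.b) hp.hD
  have z2 : (l.map Prod.snd).sum ≤ M := (Nat.le_mul_of_pos_left _ hD).trans (z1.trans m1)
  have z3 : 2 * K * (l.map Prod.snd).sum ≤ p.B := (Nat.mul_le_mul_left _ z2).trans b1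
  refine sp_pure.2 ⟨⟨R.nd, R.sub, (Nat.le_add_right _ _).trans R.bP, fun T hT => ?_, ?_, ?_⟩, ?_⟩
  · have := R.trim T hT
    rw [trN_crs (hT.trans sdiff_subset) R.sub,
      trN_crs (hT.trans sdiff_subset) (sdiff_subset.trans sdiff_subset)] at this
    rw [(trE_sums hK l z3 T).1]
    exact this
  · calc _ ≤ κ.Dq * (3 * K * (l.map Prod.snd).sum) :=
          Nat.mul_le_mul_left _ (trE_sums hK l z3 ∅).2.2
      _ = 3 * K * (κ.Dq * (l.map Prod.snd).sum) := by ring
      _ ≤ _ := Nat.mul_le_mul (by omega) z1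
  · have := R.cut
    rw [trN_crs R.sub sdiff_subset] at this
    have k := (trE_sums hK l z3 ∅).2.1
    change _ + ∑ v ∈ P.toFinset, s.mu.get v + x ≤ ∑ v ∈ P.toFinset, a.get v + _ at this
    dsimp only
    omega
  · have l1 := R.lenl
    change t ≤ 11 * (h + 2) * _ + _ at hc
    have c3 : 11 * (h + 2) * ((2 * K + 1 + 2) * A + 1) ≤
        11 * (h + 2) * ((16 * p.cL + 3) * A + 1) := Nat.mul_le_mul_left _ (by omega)
    refine le_trans ?_ (Nat.mul_le_mul_right _ hCl)
    nlinarith [Nat.zero_le (h * (p.cL * A)), Nat.zero_le (h * A), Nat.zero_le (p.cL * A),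
      Nat.zero_le (h * p.cL), Nat.zero_le (h * (p.cL * W0.length)), Nat.zero_le (h * W0.length),
      Nat.zero_le (p.cL * W0.length)]

end Crest.Agent.N325.Hi
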